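import Vale.Agent.P012.Bdl.B1

/-!
# P012 / H584 : the number of solutions of the congruence

A lower bound for the number of solutions of `R ∣ ∑ pr S_j * pr T_j` (twelve terms), and the choice
of a solution whose denominators are distinct and avoid a given finite set.
-/

set_option linter.all false

namespace Vale.Agent.P012.H584

open Finset Vale.Agent.P012

section Bilinear

variable {R : ℕ} [NeZero R] {α : Type*} [Fintype α]

theorem sum_esum_pow_eq (a : α → ℕ) (k : ℕ) :
    ∑ b : ZMod R, (esum a b) ^ k =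
      (R : ℂ) * (((univ : Finset (Fin k → α × α)).filter
        (fun P => R ∣ ∑ j, a (P j).1 * a (P j).2)).card : ℂ) := by
  classical
  have h1 : ∀ b : ZMod R, esum a b =
      ∑ p : α × α, (ZMod.stdAddChar (N := R)) (b * ((a p.1 * a p.2 : ℕ) : ZMod R)) := by
    intro b
    unfold esum hsum
    rw [← Finset.sum_product']
    refine Finset.sum_congr rfl fun p _ => ?_
    congr 1
    push_cast
    ring
  have h2 : ∀ b : ZMod R, (esum a b) ^ k =
      ∑ P : Fin k → α × α, (ZMod.stdAddChar (N := R))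
        (b * ((∑ j, a (P j).1 * a (P j).2 : ℕ) : ZMod R)) := by
    intro b
    rw [h1, Fintype.sum_pow]
    refine Finset.sum_congr rfl fun P _ => ?_
    rw [← char_sum, ← Finset.mul_sum]
    congr 2
    push_cast
    rfl
  simp only [h2]
  rw [Finset.sum_comm]
  have h3 : ∀ P : Fin k → α × α, ∑ b : ZMod R, (ZMod.stdAddChar (N := R))
        (b * ((∑ j, a (P j).1 * a (P j).2 : ℕ) : ZMod R)) =
      if R ∣ ∑ j, a (P j).1 * a (P j).2 then (R : ℂ) else 0 := by
    intro P
    rw [AddChar.sum_mulShift _ (ZMod.isPrimitive_stdAddChar R)]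
    by_cases h : R ∣ ∑ j, a (P j).1 * a (P j).2
    · rw [if_pos h, if_pos ((ZMod.natCast_eq_zero_iff _ _).2 h), ZMod.card]
    · rw [if_neg h, if_neg (fun h0 => h ((ZMod.natCast_eq_zero_iff _ _).1 h0))]
      simp
  rw [Finset.sum_congr rfl fun P _ => h3 P, ← Finset.sum_filter, Finset.sum_const, nsmul_eq_mul,
    mul_comm]

theorem sum_inv_cube_le (R : ℕ) [NeZero R] :
    ∑ b ∈ (univ : Finset (ZMod R)).erase 0, (1 : ℝ) / (addOrderOf b : ℝ) ^ 3 ≤ 2 / 3 := by
  classical
  have hmaps : ∀ b ∈ (univ : Finset (ZMod R)).erase 0, addOrderOf b ∈ Finset.Ico 2 (R + 1) := by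
    intro b hb
    rw [Finset.mem_erase] at hb
    rw [Finset.mem_Ico]
    have h1 : addOrderOf b ∣ R := by
      have := addOrderOf_dvd_card (x := b)
      rwa [ZMod.card] at this
    have h2 : 0 < addOrderOf b := Nat.pos_of_dvd_of_pos h1 (NeZero.pos R)
    have h3 : addOrderOf b ≠ 1 := by
      rw [Ne, AddMonoid.addOrderOf_eq_one_iff]
      exact hb.1
    exact ⟨by omega, Nat.lt_succ_of_le (Nat.le_of_dvd (NeZero.pos R) h1)⟩
  rw [← Finset.sum_fiberwise_of_maps_to hmaps]
  have h1 : ∀ g ∈ Finset.Ico 2 (R + 1),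
      ∑ b ∈ ((univ : Finset (ZMod R)).erase 0).filter (fun b => addOrderOf b = g),
        (1 : ℝ) / (addOrderOf b : ℝ) ^ 3 ≤ 1 / (g : ℝ) ^ 2 := by
    intro g hg
    rw [Finset.mem_Ico] at hg
    have hgpos : (0 : ℝ) < g := by
      have : 0 < g := by omega
      exact_mod_cast this
    have hcard : (((univ : Finset (ZMod R)).erase 0).filter (fun b => addOrderOf b = g)).card ≤ g := by
      refine le_trans (Finset.card_le_card ?_)
        (IsAddCyclic.card_nsmul_eq_zero_le (α := ZMod R) (n := g) (by omega))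
      intro b hb
      rw [Finset.mem_filter] at hb
      rw [Finset.mem_filter]
      refine ⟨Finset.mem_univ _, ?_⟩
      rw [← hb.2]
      exact addOrderOf_nsmul_eq_zero b
    have h2 : ∑ b ∈ ((univ : Finset (ZMod R)).erase 0).filter (fun b => addOrderOf b = g),
        (1 : ℝ) / (addOrderOf b : ℝ) ^ 3 =
        ∑ b ∈ ((univ : Finset (ZMod R)).erase 0).filter (fun b => addOrderOf b = g),
        (1 : ℝ) / (g : ℝ) ^ 3 := by
      refine Finset.sum_congr rfl fun b hb => ?_
      rw [Finset.mem_filter] at hb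
      rw [hb.2]
    rw [h2, Finset.sum_const, nsmul_eq_mul]
    have hc : ((((univ : Finset (ZMod R)).erase 0).filter (fun b => addOrderOf b = g)).card : ℝ) ≤ g := by
      exact_mod_cast hcard
    calc _ ≤ (g : ℝ) * (1 / (g : ℝ) ^ 3) := by
          apply mul_le_mul_of_nonneg_right hc
          positivity
      _ = 1 / (g : ℝ) ^ 2 := by
          field_simp
  refine (Finset.sum_le_sum h1).trans ?_
  have h3 : ∀ M : ℕ, ∑ g ∈ Finset.Ico 2 (M + 2), (1 : ℝ) / (g : ℝ) ^ 2 ≤
      2 / 3 - 1 / (M + 3 / 2 : ℝ) := by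
    intro M
    induction M with
    | zero => norm_num
    | succ M ih =>
      rw [Finset.sum_Ico_succ_top (by omega)]
      push_cast
      have hM : (0 : ℝ) ≤ M := Nat.cast_nonneg M
      have : (1 : ℝ) / (M + 2) ^ 2 ≤ 1 / (M + 3 / 2) - 1 / (M + 1 + 3 / 2) := by
        rw [div_sub_div _ _ (by positivity) (by positivity), div_le_div_iff₀ (by positivity)
          (by positivity)]
        nlinarith
      have e1 : (M : ℝ) + 1 + 1 = M + 2 := by ring
      linarith only [ih, this]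
  obtain ⟨M, rfl⟩ : ∃ M, R = M + 1 := ⟨R - 1, by have := NeZero.pos R; omega⟩
  have := h3 M
  have hM : (0 : ℝ) < 1 / (M + 3 / 2 : ℝ) := by positivity
  have e : M + 1 + 1 = M + 2 := by ring
  rw [e]
  linarith only [this, hM]

end Bilinear

/-- The number of solutions of the congruence. -/
theorem count_ge {n : ℕ} (x : Fin n → ℕ) (R : ℕ) (hR : 0 < R)
    (h : ∀ g, g ∣ R → 1 < g → (coll x g) ^ 4 * g ^ 3 ≤ 4 ^ (4 * n)) :
    (4 : ℝ) ^ (12 * n) ≤
      3 * R * (((univ : Finset (Fin 12 → Finset (Fin n) × Finset (Fin n))).filter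
        (fun P => R ∣ ∑ j, pr x (P j).1 * pr x (P j).2)).card : ℝ) := by
  classical
  have : NeZero R := ⟨hR.ne'⟩
  set a : Finset (Fin n) → ℕ := pr x with ha
  obtain ⟨N, hN⟩ : ∃ N : ℕ, N = ((univ : Finset (Fin 12 → Finset (Fin n) × Finset (Fin n))).filter
        (fun P => R ∣ ∑ j, a (P j).1 * a (P j).2)).card := ⟨_, rfl⟩
  have hsum0 : ∑ b : ZMod R, (esum a b) ^ 12 = (R : ℂ) * (N : ℂ) := by
    rw [sum_esum_pow_eq a 12, hN]
  rw [← hN]
  have h0 : esum a (0 : ZMod R) = 4 ^ n := by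
    unfold esum hsum
    simp only [zero_mul, AddChar.map_zero_eq_one, Finset.sum_const, Finset.card_univ,
      Fintype.card_finset, Fintype.card_fin, nsmul_eq_mul, mul_one]
    push_cast
    rw [← mul_pow]
    norm_num
  have hbound : ∀ b ∈ (univ : Finset (ZMod R)).erase 0,
      ‖(esum a b) ^ 12‖ ≤ (4 : ℝ) ^ (12 * n) * (1 / (addOrderOf b : ℝ) ^ 3) := by
    intro b hb
    rw [Finset.mem_erase] at hb
    set g := addOrderOf b with hg
    have h1 : g ∣ R := by
      have := addOrderOf_dvd_card (x := b)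
      rwa [ZMod.card] at this
    have h2 : 0 < g := Nat.pos_of_dvd_of_pos h1 (NeZero.pos R)
    have h3 : g ≠ 1 := by
      rw [hg, Ne, AddMonoid.addOrderOf_eq_one_iff]
      exact hb.1
    have h4 := h g h1 (by omega)
    have h5 : ((collA a g : ℕ) : ℝ) ^ 4 * (g : ℝ) ^ 3 ≤ (4 : ℝ) ^ (4 * n) := by
      exact_mod_cast h4
    have h6 := norm_sq_esum_le a b
    rw [← hg] at h6
    have hgp : (0 : ℝ) < g := by exact_mod_cast h2
    have h7 : ‖esum a b‖ ^ 12 ≤ ((g : ℝ) * (collA a g : ℝ) ^ 2) ^ 6 := by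
      have := pow_le_pow_left₀ (by (clear * - this; positivity)) h6 6
      calc ‖esum a b‖ ^ 12 = (‖esum a b‖ ^ 2) ^ 6 := by ring
        _ ≤ _ := this
    have h8 : (((collA a g : ℕ) : ℝ) ^ 4 * (g : ℝ) ^ 3) ^ 3 ≤ ((4 : ℝ) ^ (4 * n)) ^ 3 :=
      pow_le_pow_left₀ (by (clear * - h2; positivity)) h5 3
    rw [norm_pow, mul_one_div, le_div_iff₀ (by positivity)]
    calc ‖esum a b‖ ^ 12 * (g : ℝ) ^ 3 ≤ ((g : ℝ) * (collA a g : ℝ) ^ 2) ^ 6 * (g : ℝ) ^ 3 :=
          mul_le_mul_of_nonneg_right h7 (by positivity)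
      _ = (((collA a g : ℕ) : ℝ) ^ 4 * (g : ℝ) ^ 3) ^ 3 := by ring
      _ ≤ ((4 : ℝ) ^ (4 * n)) ^ 3 := h8
      _ = (4 : ℝ) ^ (12 * n) := by rw [← pow_mul]; congr 1; ring
  have h9 : (4 : ℝ) ^ (12 * n) ≤ R * N +
      ∑ b ∈ (univ : Finset (ZMod R)).erase 0, ‖(esum a b) ^ 12‖ := by
    have e1 : (esum a (0 : ZMod R)) ^ 12 =
        (R : ℂ) * N - ∑ b ∈ (univ : Finset (ZMod R)).erase 0, (esum a b) ^ 12 := by
      rw [← Finset.add_sum_erase _ _ (Finset.mem_univ (0 : ZMod R))] at hsum0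
      exact eq_sub_of_add_eq hsum0
    have e2 : ‖(esum a (0 : ZMod R)) ^ 12‖ = (4 : ℝ) ^ (12 * n) := by
      rw [h0, norm_pow, norm_pow]
      simp only [Complex.norm_ofNat]
      rw [← pow_mul]
      congr 1; ring
    rw [← e2, e1]
    refine (norm_sub_le _ _).trans ?_
    have e3 : ‖(R : ℂ) * N‖ = (R : ℝ) * N := by
      rw [norm_mul, Complex.norm_natCast, Complex.norm_natCast]
    rw [e3]
    have := norm_sum_le ((univ : Finset (ZMod R)).erase 0) (fun b => (esum a b) ^ 12)
    linarith only [this]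
  have h10 := Finset.sum_le_sum hbound
  rw [← Finset.mul_sum] at h10
  have h11 := sum_inv_cube_le R
  have h12 : (0 : ℝ) < (4 : ℝ) ^ (12 * n) := by positivity
  nlinarith only [h9, h10, h11, h12]

/-- The product of the two subset products. -/
def qq {n : ℕ} (x : Fin n → ℕ) (p : Finset (Fin n) × Finset (Fin n)) : ℕ := pr x p.1 * pr x p.2

/-- The denominators. -/
def den {n : ℕ} (x : Fin n → ℕ) (R K : ℕ) (P : Fin 12 → Finset (Fin n) × Finset (Fin n))
    (j : Fin 12) : ℕ :=
  (∑ i, qq x (P i)) / R * K * ((∏ i, x i) ^ 2 / qq x (P j))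

section

variable {n : ℕ} {x : Fin n → ℕ}

theorem pr_pos (hp : ∀ i, (x i).Prime) (S : Finset (Fin n)) : 0 < pr x S :=
  Finset.prod_pos fun i _ => (hp i).pos

theorem qq_pos (hp : ∀ i, (x i).Prime) (p : Finset (Fin n) × Finset (Fin n)) : 0 < qq x p :=
  Nat.mul_pos (pr_pos hp _) (pr_pos hp _)

theorem qq_dvd (p : Finset (Fin n) × Finset (Fin n)) : qq x p ∣ (∏ i, x i) ^ 2 := by
  rw [sq, qq]
  exact Nat.mul_dvd_mul (Finset.prod_dvd_prod_of_subset _ _ _ (Finset.subset_univ _))
    (Finset.prod_dvd_prod_of_subset _ _ _ (Finset.subset_univ _))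

theorem pr_inj (hp : ∀ i, (x i).Prime) (hinj : Function.Injective x) {S T : Finset (Fin n)}
    (h : pr x S = pr x T) : S = T := by
  ext i
  have key : ∀ U : Finset (Fin n), i ∈ U ↔ x i ∣ pr x U := by
    intro U
    constructor
    · intro hi
      exact Finset.dvd_prod_of_mem x hi
    · intro hd
      rw [pr, Prime.dvd_finset_prod_iff (hp i).prime] at hd
      obtain ⟨j, hj, hd⟩ := hd
      rw [Nat.prime_dvd_prime_iff_eq (hp i) (hp j)] at hd
      rwa [hinj hd]
  rw [key, key, h]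

/-- Few twelve-tuples in which one product is determined by the other pairs. -/
theorem card_fiber_le (hp : ∀ i, (x i).Prime) (hinj : Function.Injective x) (l : Fin 12)
    (B : Finset (Fin 12 → Finset (Fin n) × Finset (Fin n)))
    (hB : ∀ P ∈ B, ∀ P' ∈ B, (∀ i, i ≠ l → P i = P' i) → qq x (P l) = qq x (P' l)) :
    B.card ≤ 4 ^ (11 * n) * 2 ^ n := by
  classical
  have h1 : B.card ≤ Fintype.card
      (({i : Fin 12 // i ≠ l} → Finset (Fin n) × Finset (Fin n)) × Finset (Fin n)) := by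
    rw [← Finset.card_univ]
    apply Finset.card_le_card_of_injOn (fun P => (fun i => P i.1, (P l).1))
    · intro P _
      simp
    · intro P hP P' hP' heq
      simp only [Prod.mk.injEq] at heq
      obtain ⟨e1, e2⟩ := heq
      have e3 : ∀ i, i ≠ l → P i = P' i := fun i hi => congrFun e1 ⟨i, hi⟩
      have e4 := hB P hP P' hP' e3
      rw [qq, qq, e2] at e4
      have e5 : pr x (P l).2 = pr x (P' l).2 := Nat.eq_of_mul_eq_mul_left (pr_pos hp _) e4
      have e6 := pr_inj hp hinj e5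
      funext i
      by_cases hi : i = l
      · subst hi
        exact Prod.ext e2 e6
      · exact e3 i hi
  refine h1.trans (le_of_eq ?_)
  rw [Fintype.card_prod, Fintype.card_fun, Fintype.card_prod, Fintype.card_finset,
    Fintype.card_fin]
  have h2 : Fintype.card {i : Fin 12 // i ≠ l} = 11 := by
    rw [Fintype.card_subtype_compl, Fintype.card_fin, Fintype.card_subtype_eq]
  rw [h2, ← mul_pow, ← pow_mul]
  norm_num
  exact Nat.mul_comm _ _

/-- A solution whose denominators are distinct and avoid a given finite set. -/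
theorem exists_dens (hp : ∀ i, (x i).Prime) (hinj : Function.Injective x)
    (R K : ℕ) (hR : 0 < R) (hK : 0 < K)
    (h : ∀ g, g ∣ R → 1 < g → (coll x g) ^ 4 * g ^ 3 ≤ 4 ^ (4 * n))
    (F : Finset ℕ) (hF : 3 * R * (144 + 12 * F.card) < 2 ^ n) :
    ∃ P : Fin 12 → Finset (Fin n) × Finset (Fin n), R ∣ ∑ j, qq x (P j) ∧
      Function.Injective (fun j => den x R K P j) ∧ ∀ j, den x R K P j ∉ F := by
  classical
  set S := (univ : Finset (Fin 12 → Finset (Fin n) × Finset (Fin n))).filter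
        (fun P => R ∣ ∑ j, pr x (P j).1 * pr x (P j).2) with hS
  have hcount := count_ge x R hR h
  rw [← hS] at hcount
  have hPpos : 0 < (∏ i, x i) ^ 2 := pow_pos (Finset.prod_pos fun i _ => (hp i).pos) 2
  -- the bad sets
  let B1 : Fin 12 × Fin 12 → Finset (Fin 12 → Finset (Fin n) × Finset (Fin n)) := fun ij =>
    if ij.1 = ij.2 then ∅ else S.filter (fun P => qq x (P ij.1) = qq x (P ij.2))
  let B2 : Fin 12 × ℕ → Finset (Fin 12 → Finset (Fin n) × Finset (Fin n)) := fun jf =>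
    S.filter (fun P => den x R K P jf.1 = jf.2)
  have hB1 : ∀ ij, (B1 ij).card ≤ 4 ^ (11 * n) * 2 ^ n := by
    rintro ⟨i, j⟩
    by_cases hij : i = j
    · simp only [B1, hij, if_true, Finset.card_empty]
      exact Nat.zero_le _
    · simp only [B1, hij, if_false]
      apply card_fiber_le hp hinj i
      intro P hP P' hP' hag
      rw [Finset.mem_filter] at hP hP'
      rw [hP.2, hP'.2, hag j (Ne.symm hij)]
  have hB2 : ∀ jf, (B2 jf).card ≤ 4 ^ (11 * n) * 2 ^ n := by
    rintro ⟨j, f⟩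
    obtain ⟨l, hl⟩ : ∃ l : Fin 12, j ≠ l := by
      by_cases hj : j = 0
      · exact ⟨1, by rw [hj]; decide⟩
      · exact ⟨0, hj⟩
    apply card_fiber_le hp hinj l
    intro P hP P' hP' hag
    simp only [B2, Finset.mem_filter, hS, Finset.mem_univ, true_and] at hP hP'
    obtain ⟨hd, hf⟩ := hP
    obtain ⟨hd', hf'⟩ := hP'
    rw [← hf', den, den, hag j hl] at hf
    have h1 : 0 < (∏ i, x i) ^ 2 / qq x (P' j) :=
      Nat.div_pos (Nat.le_of_dvd hPpos (qq_dvd _)) (qq_pos hp _)
    have h2 := Nat.eq_of_mul_eq_mul_right h1 hf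
    have h3 := Nat.eq_of_mul_eq_mul_right hK h2
    have h4 : ∑ i, qq x (P i) = ∑ i, qq x (P' i) := by
      have e1 : R ∣ ∑ i, qq x (P i) := hd
      have e2 : R ∣ ∑ i, qq x (P' i) := hd'
      rw [← Nat.div_mul_cancel e1, ← Nat.div_mul_cancel e2, h3]
    rw [← Finset.add_sum_erase _ _ (Finset.mem_univ l),
      ← Finset.add_sum_erase _ (fun i => qq x (P' i)) (Finset.mem_univ l)] at h4
    have h5 : ∑ i ∈ (univ : Finset (Fin 12)).erase l, qq x (P i) =
        ∑ i ∈ (univ : Finset (Fin 12)).erase l, qq x (P' i) := by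
      refine Finset.sum_congr rfl fun i hi => ?_
      rw [hag i (Finset.ne_of_mem_erase hi)]
    rw [h5] at h4
    exact Nat.add_right_cancel h4
  set U1 := (univ : Finset (Fin 12 × Fin 12)).biUnion B1 with hU1
  set U2 := ((univ : Finset (Fin 12)) ×ˢ F).biUnion B2 with hU2
  have hU1c : U1.card ≤ 144 * (4 ^ (11 * n) * 2 ^ n) := by
    refine (Finset.card_biUnion_le_card_mul _ _ _ fun ij _ => hB1 ij).trans (le_of_eq ?_)
    rw [Finset.card_univ, Fintype.card_prod, Fintype.card_fin]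
  have hU2c : U2.card ≤ (12 * F.card) * (4 ^ (11 * n) * 2 ^ n) := by
    refine (Finset.card_biUnion_le_card_mul _ _ _ fun jf _ => hB2 jf).trans (le_of_eq ?_)
    rw [Finset.card_product, Finset.card_univ, Fintype.card_fin]
  have hlt : (U1 ∪ U2).card < S.card := by
    by_contra hcon
    push Not at hcon
    have h1 : S.card ≤ (144 + 12 * F.card) * (4 ^ (11 * n) * 2 ^ n) := by
      refine hcon.trans ((Finset.card_union_le _ _).trans ?_)
      rw [add_mul]
      exact Nat.add_le_add hU1c hU2c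
    have h2 : (S.card : ℝ) ≤ (144 + 12 * F.card) * (4 ^ (11 * n) * 2 ^ n) := by exact_mod_cast h1
    have h3 : (3 * R * (144 + 12 * F.card) : ℝ) < 2 ^ n := by exact_mod_cast hF
    have hRr : (0 : ℝ) < R := by exact_mod_cast hR
    have h4 : (3 * R * (S.card : ℝ)) < 4 ^ (12 * n) := by
      calc (3 * R * (S.card : ℝ)) ≤ 3 * R * ((144 + 12 * F.card) * (4 ^ (11 * n) * 2 ^ n)) := by
            apply mul_le_mul_of_nonneg_left h2; positivity
        _ = (3 * R * (144 + 12 * F.card)) * (4 ^ (11 * n) * 2 ^ n) := by ring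
        _ < 2 ^ n * (4 ^ (11 * n) * 2 ^ n) := by
            apply mul_lt_mul_of_pos_right h3; positivity
        _ = 4 ^ (12 * n) := by
            have : (4 : ℝ) = 2 ^ 2 := by norm_num
            rw [this, ← pow_mul, ← pow_mul, ← pow_add, ← pow_add]
            congr 1; ring
    linarith only [h4, hcount]
  obtain ⟨P, hPS, hPU⟩ := Finset.exists_mem_notMem_of_card_lt_card hlt
  rw [Finset.mem_union, not_or, hU1, hU2, Finset.mem_biUnion, Finset.mem_biUnion] at hPU
  have hdvd : R ∣ ∑ j, qq x (P j) := by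
    rw [hS, Finset.mem_filter] at hPS
    exact hPS.2
  refine ⟨P, hdvd, ?_, ?_⟩
  · intro i j hij
    by_contra hne
    apply hPU.1
    refine ⟨(i, j), Finset.mem_univ _, ?_⟩
    simp only [B1, hne, if_false, Finset.mem_filter]
    refine ⟨hPS, ?_⟩
    have hD : 0 < (∑ i, qq x (P i)) / R * K := by
      apply Nat.mul_pos _ hK
      apply Nat.div_pos (Nat.le_of_dvd _ hdvd) hR
      apply Finset.sum_pos fun i _ => qq_pos hp _
      exact ⟨0, Finset.mem_univ _⟩
    have h1 : (∏ i, x i) ^ 2 / qq x (P i) = (∏ i, x i) ^ 2 / qq x (P j) :=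
      Nat.eq_of_mul_eq_mul_left hD hij
    have h2 := Nat.div_mul_cancel (qq_dvd (x := x) (P i))
    have h3 := Nat.div_mul_cancel (qq_dvd (x := x) (P j))
    rw [h1] at h2
    have h4 : 0 < (∏ i, x i) ^ 2 / qq x (P j) :=
      Nat.div_pos (Nat.le_of_dvd hPpos (qq_dvd _)) (qq_pos hp _)
    exact Nat.eq_of_mul_eq_mul_left h4 (h2.trans h3.symm)
  · intro j hj
    apply hPU.2
    refine ⟨(j, den x R K P j), Finset.mem_product.2 ⟨Finset.mem_univ _, hj⟩, ?_⟩
    simp only [B2, Finset.mem_filter]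
    exact ⟨hPS, trivial⟩

end

end Vale.Agent.P012.H584
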