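import Vale.Agent.P012.H584.Key

/-!
# P012 / H584 : robust representations and digit expansions, with tags

`RobT T Φ B k x`: as `Rob`, and no denominator is divisible by a member of the set `T` of primes.
-/

set_option linter.all false

namespace Vale.Agent.P012.H584

open Finset Vale.Agent.P012

/-- Representations avoiding any given finite set, with denominators prime to the tags. -/
def RobT (T : Finset ℕ) (Φ B k : ℕ) (x : ℚ) : Prop :=
  ∀ F : Finset ℕ, F.card + k ≤ Φ → ∃ s : Finset ℕ, s.card ≤ k ∧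
    (∀ n ∈ s, 0 < n ∧ n ≤ B ∧ n ∉ F ∧ ∀ ρ ∈ T, ¬ ρ ∣ n) ∧ ∑ n ∈ s, (1 : ℚ) / n = x

section

variable {T : Finset ℕ} {Φ B B' k l : ℕ} {x y : ℚ}

theorem Rob.toT (h : Rob Φ B k x) (hT : ∀ ρ ∈ T, B < ρ) : RobT T Φ B k x := by
  intro F hF
  obtain ⟨s, h1, h2, h3⟩ := h F hF
  refine ⟨s, h1, fun n hn => ⟨(h2 n hn).1, (h2 n hn).2.1, (h2 n hn).2.2, fun ρ hρ hd => ?_⟩, h3⟩
  have h4 := Nat.le_of_dvd (h2 n hn).1 hd
  have h5 := (h2 n hn).2.1
  have h6 := hT ρ hρ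
  omega

theorem RobT.mono (h : RobT T Φ B k x) (hk : k ≤ l) (hB : B ≤ B') : RobT T Φ B' l x := by
  intro F hF
  obtain ⟨s, h1, h2, h3⟩ := h F (by omega)
  exact ⟨s, h1.trans hk, fun n hn => ⟨(h2 n hn).1, (h2 n hn).2.1.trans hB, (h2 n hn).2.2⟩, h3⟩

theorem robT_zero (T : Finset ℕ) (Φ B k : ℕ) : RobT T Φ B k 0 :=
  fun F _ => ⟨∅, by simp, by simp, by simp⟩

theorem RobT.add (hx : RobT T Φ B k x) (hy : RobT T Φ B l y) : RobT T Φ B (k + l) (x + y) := by
  classical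
  intro F hF
  obtain ⟨s, h1, h2, h3⟩ := hx F (by omega)
  obtain ⟨t, h1', h2', h3'⟩ := hy (F ∪ s) (by
    have := Finset.card_union_le F s
    omega)
  have hd : Disjoint s t := by
    rw [Finset.disjoint_left]
    intro a ha hb
    exact (h2' a hb).2.2.1 (Finset.mem_union_right _ ha)
  refine ⟨s ∪ t, ?_, ?_, ?_⟩
  · have := Finset.card_union_le s t
    omega
  · intro n hn
    rcases Finset.mem_union.1 hn with h | h
    · exact h2 n h
    · exact ⟨(h2' n h).1, (h2' n h).2.1, fun hF => (h2' n h).2.2.1 (Finset.mem_union_left _ hF),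
        (h2' n h).2.2.2⟩
  · rw [Finset.sum_union hd, h3, h3']

theorem RobT.div (hx : RobT T Φ B k x) {t : ℕ} (ht : 0 < t)
    (hT : ∀ ρ ∈ T, ρ.Prime ∧ ¬ ρ ∣ t) : RobT T Φ (B * t) k (x / t) := by
  classical
  intro F hF
  obtain ⟨s, h1, h2, h3⟩ := hx (F.image (· / t)) (by
    have := Finset.card_image_le (s := F) (f := (· / t))
    omega)
  have hinj : Set.InjOn (fun n : ℕ => n * t) s := by
    intro a _ b _ hab
    exact Nat.eq_of_mul_eq_mul_right ht hab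
  refine ⟨s.image (fun n => n * t), ?_, ?_, ?_⟩
  · exact Finset.card_image_le.trans h1
  · intro n hn
    obtain ⟨a, ha, rfl⟩ := Finset.mem_image.1 hn
    obtain ⟨h4, h5, h6, h7⟩ := h2 a ha
    refine ⟨Nat.mul_pos h4 ht, Nat.mul_le_mul_right _ h5, fun hF' => h6 ?_, fun ρ hρ hd => ?_⟩
    · exact Finset.mem_image.2 ⟨a * t, hF', Nat.mul_div_cancel _ ht⟩
    · rcases ((hT ρ hρ).1.dvd_mul).1 hd with h | h
      · exact h7 ρ hρ h
      · exact (hT ρ hρ).2 h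
  · rw [Finset.sum_image (fun a ha b hb hab => hinj ha hb hab), ← h3, Finset.sum_div]
    refine Finset.sum_congr rfl fun n _ => ?_
    push_cast
    rw [div_div]

theorem not_dvd_two_pow (hT : ∀ ρ ∈ T, ρ.Prime ∧ 2 < ρ) (v : ℕ) :
    ∀ ρ ∈ T, ρ.Prime ∧ ¬ ρ ∣ 2 ^ v := by
  intro ρ hρ
  refine ⟨(hT ρ hρ).1, fun hd => ?_⟩
  have h1 := (hT ρ hρ).1.dvd_of_dvd_pow hd
  have h2 := Nat.le_of_dvd (by norm_num) h1
  have h3 := (hT ρ hρ).2
  omega

end

section
variable {T : Finset ℕ} {m N₂ Φ B : ℕ} (G : Finset ℕ)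

/-- two good digits -/
theorem two_digitsT (hT : ∀ ρ ∈ T, ρ.Prime ∧ 2 < ρ) (hm : 2 ≤ m)
    (hG : ∀ R ∈ G, RobT T Φ B 12 ((R : ℚ) / N₂))
    (hd : ∀ y q : ℕ, 2 ^ (31 * m) ≤ q → y + q ≤ 2 ^ (32 * m) →
        4 * ((Finset.Ioc y (y + q)).filter (fun R => R ∉ G)).card ≤ q)
    (q : ℕ) (h1 : 2 ^ (32 * m - 1) ≤ q) (h2 : q ≤ 2 ^ (32 * m)) :
    RobT T Φ B 24 ((q : ℚ) / N₂) := by
  have hH : 2 ^ (31 * m) < q := by
    refine lt_of_lt_of_le ?_ h1
    exact Nat.pow_lt_pow_right (by norm_num) (by omega)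
  have hHp : 0 < 2 ^ (31 * m) := by positivity
  have hq0 : 0 < q := by omega
  -- number of bad R in (0, q-1]
  have hbad := hd 0 (q - 1) (by omega) (by omega)
  rw [Nat.zero_add] at hbad
  set B := (Finset.Ioc 0 (q - 1)).filter (fun R => R ∉ G) with hB
  set B' := (Finset.Ioc 0 (q - 1)).filter (fun R => q - R ∉ G) with hB'
  have hcard : B'.card ≤ B.card := by
    apply Finset.card_le_card_of_injOn (fun R => q - R)
    · intro R hR
      simp only [hB', Finset.coe_filter, Finset.mem_Ioc, Set.mem_ofPred_eq] at hR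
      simp only [hB, Finset.coe_filter, Finset.mem_Ioc, Set.mem_ofPred_eq]
      refine ⟨by omega, hR.2⟩
    · intro R hR R' hR' heq
      simp only [hB', Finset.coe_filter, Finset.mem_Ioc, Set.mem_ofPred_eq] at hR hR'
      simp only at heq
      omega
  have : ∃ R ∈ Finset.Ioc 0 (q - 1), R ∉ B ∪ B' := by
    by_contra hcon
    push Not at hcon
    have hsub : Finset.Ioc 0 (q - 1) ⊆ B ∪ B' := fun R hR => hcon R hR
    have h3 := Finset.card_le_card hsub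
    have h4 := Finset.card_union_le B B'
    rw [Nat.card_Ioc, Nat.sub_zero] at h3
    have h5 : 4 ≤ 2 ^ (31 * m) := by
      calc 4 = 2 ^ 2 := by norm_num
        _ ≤ 2 ^ (31 * m) := Nat.pow_le_pow_right (by norm_num) (by omega)
    omega
  obtain ⟨R, hR, hR2⟩ := this
  rw [Finset.mem_union, not_or] at hR2
  have hRG : R ∈ G := by
    by_contra hcon
    exact hR2.1 (Finset.mem_filter.2 ⟨hR, hcon⟩)
  have hRG' : q - R ∈ G := by
    by_contra hcon
    exact hR2.2 (Finset.mem_filter.2 ⟨hR, hcon⟩)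
  rw [Finset.mem_Ioc] at hR
  have h5 := (hG R hRG).add (hG (q - R) hRG')
  have h6 : (R : ℚ) / N₂ + ((q - R : ℕ) : ℚ) / N₂ = (q : ℚ) / N₂ := by
    rw [Nat.cast_sub (by omega)]; ring
  rw [h6] at h5
  exact h5

theorem digits_auxT (hT : ∀ ρ ∈ T, ρ.Prime ∧ 2 < ρ) (hm : 2 ≤ m) (hN : 0 < N₂)
    (hG : ∀ R ∈ G, RobT T Φ B 12 ((R : ℚ) / N₂))
    (hd : ∀ y q : ℕ, 2 ^ (31 * m) ≤ q → y + q ≤ 2 ^ (32 * m) →
        4 * ((Finset.Ioc y (y + q)).filter (fun R => R ∉ G)).card ≤ q)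
    (w j : ℕ) : ∀ s : ℕ, s ≤ 2 ^ w → s ≤ 2 ^ ((m - 1) * j) * 2 ^ (32 * m - 1) →
    RobT T Φ (B * 2 ^ w) (24 + 12 * j) (((s + 2 ^ (32 * m - 1) : ℕ) : ℚ) / (2 ^ w * N₂)) := by
  induction j with
  | zero =>
    intro s _ hs
    have h1 := two_digitsT G hT hm hG hd (s + 2 ^ (32 * m - 1)) (by omega) (by
      have : 2 ^ (32 * m) = 2 ^ (32 * m - 1) + 2 ^ (32 * m - 1) := by
        rw [← two_mul, ← pow_succ']; congr 1; omega
      simp only [mul_zero, pow_zero, one_mul] at hs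
      omega)
    have h2 := h1.div (t := 2 ^ w) (by positivity) (not_dvd_two_pow hT _)
    have h3 : ((s + 2 ^ (32 * m - 1) : ℕ) : ℚ) / N₂ / ((2 ^ w : ℕ) : ℚ)
        = ((s + 2 ^ (32 * m - 1) : ℕ) : ℚ) / (2 ^ w * N₂) := by
      push_cast
      rw [div_div, mul_comm (N₂ : ℚ)]
    rw [h3] at h2
    exact h2
  | succ j ih =>
    intro s hsw hs
    by_cases hsmall : s ≤ 2 ^ (32 * m - 1)
    · refine (ih s hsw ?_).mono (by omega) le_rfl
      calc s ≤ 2 ^ (32 * m - 1) := hsmall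
        _ ≤ 2 ^ ((m - 1) * j) * 2 ^ (32 * m - 1) := Nat.le_mul_of_pos_left _ (by positivity)
    · push Not at hsmall
      obtain ⟨R, hRG, u, hu1, hu2, hu3⟩ := one_digit G hm hd s hsmall.le
      have huw : u ≤ w := by
        have : 2 ^ u ≤ 2 ^ w := hu1.trans hsw
        exact (Nat.pow_le_pow_iff_right (by norm_num)).1 this
      have hs' : s - R * 2 ^ u ≤ 2 ^ ((m - 1) * j) * 2 ^ (32 * m - 1) := by
        have h1 : (s - R * 2 ^ u) * 2 ^ (m - 1)
            ≤ (2 ^ ((m - 1) * j) * 2 ^ (32 * m - 1)) * 2 ^ (m - 1) := by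
          calc (s - R * 2 ^ u) * 2 ^ (m - 1) ≤ s := hu3
            _ ≤ 2 ^ ((m - 1) * (j + 1)) * 2 ^ (32 * m - 1) := hs
            _ = _ := by rw [mul_add, pow_add]; ring
        exact Nat.le_of_mul_le_mul_right h1 (by positivity)
      have h1 := ih (s - R * 2 ^ u) (by omega) hs'
      have h2 := ((hG R hRG).div (t := 2 ^ (w - u)) (by positivity) (not_dvd_two_pow hT _)).mono le_rfl
        (Nat.mul_le_mul_left B (Nat.pow_le_pow_right (by norm_num) (Nat.sub_le w u)))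
      have h3 := h1.add h2
      have h4 : (((s - R * 2 ^ u) + 2 ^ (32 * m - 1) : ℕ) : ℚ) / (2 ^ w * N₂)
          + (R : ℚ) / N₂ / ((2 ^ (w - u) : ℕ) : ℚ)
          = ((s + 2 ^ (32 * m - 1) : ℕ) : ℚ) / (2 ^ w * N₂) := by
        have hw : (2 : ℚ) ^ w = 2 ^ (w - u) * 2 ^ u := by
          rw [← pow_add]; congr 1; omega
        have hN' : (N₂ : ℚ) ≠ 0 := by positivity
        rw [Nat.cast_add, Nat.cast_sub hu2]
        push_cast
        rw [hw]
        field_simp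
        ring
      rw [h4] at h3
      exact h3.mono (by omega) le_rfl

theorem digitsT (hT : ∀ ρ ∈ T, ρ.Prime ∧ 2 < ρ) (hm : 2 ≤ m) (hN : 0 < N₂)
    (hG : ∀ R ∈ G, RobT T Φ B 12 ((R : ℚ) / N₂))
    (hd : ∀ y q : ℕ, 2 ^ (31 * m) ≤ q → y + q ≤ 2 ^ (32 * m) →
        4 * ((Finset.Ioc y (y + q)).filter (fun R => R ∉ G)).card ≤ q)
    (w q : ℕ) (hq : q ≤ 2 ^ w) :
    RobT T Φ (B * 2 ^ (w + 32 * m)) (12 * (w / (m - 1) + 3)) ((q : ℚ) / (2 ^ w * N₂)) := by
  rcases Nat.eq_zero_or_pos q with h0 | hq0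
  · subst h0; simpa only [CharP.cast_eq_zero, zero_div] using robT_zero _ _ _ _
  by_cases hbig : 2 ^ (32 * m - 1) ≤ q
  · have hm1 : 0 < m - 1 := by omega
    have h1 := digits_auxT G hT hm hN hG hd w (w / (m - 1) + 1) (q - 2 ^ (32 * m - 1))
      ((Nat.sub_le _ _).trans hq) (by
      calc q - 2 ^ (32 * m - 1) ≤ q := Nat.sub_le _ _
        _ ≤ 2 ^ w := hq
        _ ≤ 2 ^ ((m - 1) * (w / (m - 1) + 1)) := by
            apply Nat.pow_le_pow_right (by norm_num)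
            exact (Nat.lt_mul_div_succ w hm1).le
        _ ≤ 2 ^ ((m - 1) * (w / (m - 1) + 1)) * 2 ^ (32 * m - 1) :=
            Nat.le_mul_of_pos_right _ (by positivity))
    have h2 : q - 2 ^ (32 * m - 1) + 2 ^ (32 * m - 1) = q := by omega
    rw [h2] at h1
    exact h1.mono (by omega)
      (Nat.mul_le_mul_left B (Nat.pow_le_pow_right (by norm_num) (Nat.le_add_right _ _)))
  · push Not at hbig
    -- scale
    set t := 32 * m - 1 - Nat.log 2 q with ht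
    have hlt : Nat.log 2 q < 32 * m - 1 := by
      exact Nat.log_lt_of_lt_pow (by omega) hbig
    have h1 : 2 ^ (Nat.log 2 q) ≤ q := Nat.pow_log_le_self 2 (by omega)
    have h2 : q < 2 ^ (Nat.log 2 q + 1) := Nat.lt_pow_succ_log_self (by norm_num) q
    have h3 : 2 ^ (32 * m - 1) ≤ q * 2 ^ t := by
      calc 2 ^ (32 * m - 1) = 2 ^ (Nat.log 2 q) * 2 ^ t := by
            rw [← pow_add]; congr 1; omega
        _ ≤ q * 2 ^ t := Nat.mul_le_mul_right _ h1
    have h4 : q * 2 ^ t ≤ 2 ^ (32 * m) := by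
      calc q * 2 ^ t ≤ 2 ^ (Nat.log 2 q + 1) * 2 ^ t := Nat.mul_le_mul_right _ h2.le
        _ = 2 ^ (32 * m) := by rw [← pow_add]; congr 1; omega
    have h5 := (two_digitsT G hT hm hG hd _ h3 h4).div (t := 2 ^ (w + t)) (by positivity) (not_dvd_two_pow hT _)
    have h6 : ((q * 2 ^ t : ℕ) : ℚ) / N₂ / ((2 ^ (w + t) : ℕ) : ℚ) = (q : ℚ) / (2 ^ w * N₂) := by
      have hN' : (N₂ : ℚ) ≠ 0 := by positivity
      push_cast
      rw [pow_add]
      field_simp
    rw [h6] at h5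
    exact h5.mono (by
      generalize w / (m - 1) = z
      omega) (Nat.mul_le_mul_left B (Nat.pow_le_pow_right (by norm_num) (by omega)))

end

end Vale.Agent.P012.H584
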