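import Vale.Agent.P012.H584.UpperT

/-!
# P012 / H584 : many short expansions with denominators of polynomial size
-/

set_option linter.all false

namespace Vale.Agent.P012.H584

open Finset Filter Vale.Agent.P012

theorem sunflower_of_key (hkey : KeyStatement') (hP : PrimeCountStatement) (A : ℕ) :
    ∃ C : ℝ, ∀ a b : ℕ, 1 ≤ a → a < b →
    ∃ (s₀ : Finset ℕ) (t : Fin (b ^ A) → Finset ℕ),
      (∀ i, (t i).Nonempty ∧ Disjoint s₀ (t i)) ∧ (∀ i j, i ≠ j → Disjoint (t i) (t j)) ∧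
      ∀ i, IsExpansion a b (s₀ ∪ t i) ∧
        ((s₀ ∪ t i).card : ℝ) ≤ C * Real.log (Real.log ((b : ℝ) + 2)) ∧
        ∀ n ∈ s₀ ∪ t i, (n : ℝ) ≤ (b : ℝ) ^ C := by
  classical
  obtain ⟨c, b₀, hb₀⟩ := upperT hkey hP A
  obtain ⟨b₁, hb₁⟩ : ∃ b₁, b₁ = b₀ + 4 := ⟨_, rfl⟩
  obtain ⟨c₂, hc₂⟩ : ∃ c₂ : ℝ, c₂ = 2 + 4 * Real.log b₁ + 2 := ⟨_, rfl⟩
  have hb₁R : (4 : ℝ) ≤ b₁ := by
    have : 4 ≤ b₁ := by omega
    exact_mod_cast this
  have hlogb₁ : 0 ≤ Real.log b₁ := Real.log_nonneg (by linarith only [hb₁R])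
  have hc₂1 : 1 ≤ c₂ := by rw [hc₂]; linarith only [hlogb₁]
  obtain ⟨c₃, hc₃⟩ : ∃ c₃ : ℝ, c₃ = 8 * Real.log c₂ + 6 := ⟨_, rfl⟩
  have hlogc₂ : 0 ≤ Real.log c₂ := Real.log_nonneg hc₂1
  have hc₃1 : 1 ≤ c₃ := by rw [hc₃]; linarith only [hlogc₂]
  have hcR : (0 : ℝ) ≤ c := Nat.cast_nonneg _
  refine ⟨2 * c * c₂ * c₃, fun a b ha hab => ?_⟩
  have hb2 : 2 ≤ b := by omega
  have hb2R : (2 : ℝ) ≤ b := by exact_mod_cast hb2
  -- the multiple
  have hk0 : 0 < b₁ := by omega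
  have hkbk : b₁ ≤ b * b₁ := Nat.le_mul_of_pos_left _ (by omega)
  have hbbk : b ≤ b * b₁ := Nat.le_mul_of_pos_right _ hk0
  obtain ⟨m, hm⟩ : ∃ m, m = Nat.log 2 (b * b₁) + 1 := ⟨_, rfl⟩
  obtain ⟨L, hL⟩ : ∃ L, L = Nat.log 2 m + 1 := ⟨_, rfl⟩
  obtain ⟨s₀, t', hs₀c, hs₀, ht', htd'⟩ := hb₀ (b * b₁) (by omega) (a * b₁)
    (Nat.mul_pos (by omega) hk0) (Nat.mul_lt_mul_of_pos_right hab hk0) m L hm hL
  have hquot : ((a * b₁ : ℕ) : ℚ) / ((b * b₁ : ℕ) : ℚ) = (a : ℚ) / b := by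
    have h1 : (b₁ : ℚ) ≠ 0 := by positivity
    have h2 : (b : ℚ) ≠ 0 := by positivity
    push_cast
    field_simp
  rw [hquot] at ht'
  have hpow : b ^ A ≤ (b * b₁) ^ A := Nat.pow_le_pow_left hbbk _
  obtain ⟨t, htdef⟩ : ∃ t : Fin (b ^ A) → Finset ℕ, t = fun i => t' (Fin.castLE hpow i) := ⟨_, rfl⟩
  have ht : ∀ i, (t i).Nonempty ∧ (t i).card ≤ c * L ∧ Disjoint s₀ (t i) ∧
        (∀ n ∈ t i, 0 < n ∧ n ≤ 2 ^ (c * m)) ∧
        ∑ n ∈ s₀, (1 : ℚ) / n + ∑ n ∈ t i, (1 : ℚ) / n = (a : ℚ) / b := by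
    intro i; rw [htdef]; exact ht' _
  have htd : ∀ i j, i ≠ j → Disjoint (t i) (t j) := by
    intro i j hij
    rw [htdef]
    exact htd' _ _ (fun h => hij ((Fin.castLE_injective hpow) h))
  have hm2 : 2 ≤ m := by
    have : 1 ≤ Nat.log 2 (b * b₁) := Nat.le_log_of_pow_le (by norm_num) (by omega)
    omega
  -- real bounds
  set ℓ := Real.log (b : ℝ) with hℓ
  set ll := Real.log (Real.log ((b : ℝ) + 2)) with hll
  have hlog2 := Real.log_two_gt_d9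
  have hlog2' := Real.log_two_lt_d9
  have hℓ2 : 1 / 2 ≤ ℓ := by
    have : Real.log 2 ≤ ℓ := Real.log_le_log (by norm_num) hb2R
    linarith only [this, hlog2]
  have hll4 : 1 / 4 ≤ ll := by
    have h1 : 4 / 3 ≤ Real.log ((b : ℝ) + 2) := by
      have h2 : Real.log 4 ≤ Real.log ((b : ℝ) + 2) := Real.log_le_log (by norm_num) (by linarith)
      have h3 : Real.log 4 = 2 * Real.log 2 := by
        rw [show (4 : ℝ) = 2 ^ 2 by norm_num, Real.log_pow]; norm_num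
      linarith only [h2, h3, hlog2]
    have h4 : Real.log (4 / 3) ≤ ll := Real.log_le_log (by norm_num) h1
    have h5 : 1 - (4 / 3 : ℝ)⁻¹ ≤ Real.log (4 / 3) := Real.one_sub_inv_le_log_of_pos (by norm_num)
    norm_num at h5
    linarith only [h4, h5]
  have hmR : (m : ℝ) ≤ c₂ * ℓ := by
    have h1 := natLog_le_log (x := b * b₁) (by omega)
    have h2 : Real.log ((b * b₁ : ℕ) : ℝ) = ℓ + Real.log b₁ := by
      push_cast
      have hb0 : (b : ℝ) ≠ 0 := by positivity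
      have hb1' : (b₁ : ℝ) ≠ 0 := by positivity
      rw [Real.log_mul hb0 hb1']
    rw [h2] at h1
    have h3 : (m : ℝ) = (Nat.log 2 (b * b₁) : ℝ) + 1 := by rw [hm]; push_cast; ring
    rw [h3, hc₂]
    have h4 : Real.log b₁ * (1 / 2) ≤ Real.log b₁ * ℓ := mul_le_mul_of_nonneg_left hℓ2 hlogb₁
    nlinarith only [h1, h4, hℓ2]
  have hLR : (L : ℝ) ≤ c₃ * ll := by
    have h1 := natLog_le_log (x := m) (by omega)
    have hm0 : (0 : ℝ) < m := by
      have : 0 < m := by omega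
      exact_mod_cast this
    have hℓ0 : 0 < ℓ := by linarith only [hℓ2]
    have h2 : Real.log (m : ℝ) ≤ Real.log c₂ + Real.log ℓ := by
      rw [← Real.log_mul (by positivity) hℓ0.ne']
      exact Real.log_le_log hm0 hmR
    have h3 : Real.log ℓ ≤ ll := by
      apply Real.log_le_log hℓ0
      exact Real.log_le_log (by positivity) (by linarith)
    have h4 : (L : ℝ) = (Nat.log 2 m : ℝ) + 1 := by rw [hL]; push_cast; ring
    have h5 : Real.log c₂ * (1 / 4) ≤ Real.log c₂ * ll := mul_le_mul_of_nonneg_left hll4 hlogc₂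
    rw [h4, hc₃]
    nlinarith only [h1, h2, h3, h5, hll4]
  have hL0 : (0 : ℝ) ≤ L := Nat.cast_nonneg _
  have hm0 : (0 : ℝ) ≤ m := Nat.cast_nonneg _
  have hc3ll : 0 ≤ c₃ * ll := hL0.trans hLR
  have hc2ℓ : 0 ≤ c₂ * ℓ := hm0.trans hmR
  -- small numbers
  have hsize : ∀ n : ℕ, n ≤ 2 ^ (c * m) → (n : ℝ) ≤ (b : ℝ) ^ (2 * c * c₂ * c₃) := by
    intro n hn
    have h1 : (n : ℝ) ≤ (2 : ℝ) ^ (c * m) := by exact_mod_cast hn
    have h2 : (2 : ℝ) ^ (c * m) = Real.exp (Real.log 2 * (c * m)) := by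
      rw [Real.exp_mul, Real.exp_log (by norm_num)]
      rw [← Real.rpow_natCast]
      congr 1
      push_cast
      ring
    have h3 : (b : ℝ) ^ (2 * c * c₂ * c₃) = Real.exp (ℓ * (2 * c * c₂ * c₃)) := by
      rw [Real.rpow_def_of_pos (by positivity)]
    rw [h3]
    rw [h2] at h1
    refine h1.trans (Real.exp_le_exp.2 ?_)
    have h4 : (c : ℝ) * m ≤ c * (c₂ * ℓ) := mul_le_mul_of_nonneg_left hmR hcR
    have h5 : 0 ≤ (c : ℝ) * m := mul_nonneg hcR hm0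
    have h6 : (0 : ℝ) ≤ c * (c₂ * ℓ) := h5.trans h4
    have h7 : (c : ℝ) * (c₂ * ℓ) ≤ c * (c₂ * ℓ) * c₃ := le_mul_of_one_le_right h6 hc₃1
    calc Real.log 2 * (c * m) ≤ 1 * (c * m) :=
          mul_le_mul_of_nonneg_right (by linarith only [hlog2']) h5
      _ ≤ c * (c₂ * ℓ) * c₃ := by linarith only [h4, h7]
      _ ≤ 2 * (c * (c₂ * ℓ) * c₃) := by linarith only [h6, h7]
      _ = ℓ * (2 * c * c₂ * c₃) := by ring
  refine ⟨s₀, t, fun i => ⟨(ht i).1, (ht i).2.2.1⟩, htd, ?_⟩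
  intro i
  obtain ⟨h1, h2, h3, h4, h5⟩ := ht i
  refine ⟨⟨?_, ?_⟩, ?_, ?_⟩
  · intro n hn
    rcases Finset.mem_union.1 hn with hn | hn
    · exact (hs₀ n hn).1
    · have hn0 := (h4 n hn).1
      by_contra hcon
      have hn1 : n = 1 := by omega
      subst hn1
      have h6 : (1 : ℚ) ≤ ∑ n ∈ t i, (1 : ℚ) / n := by
        have := Finset.single_le_sum (f := fun n : ℕ => (1 : ℚ) / n)
          (fun n _ => by positivity) hn
        simpa using this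
      have h7 : (0 : ℚ) ≤ ∑ n ∈ s₀, (1 : ℚ) / n := Finset.sum_nonneg fun n _ => by positivity
      have h8 : (a : ℚ) / b < 1 := by
        rw [div_lt_one (by positivity)]
        exact_mod_cast hab
      linarith only [h6, h7, h8, h5]
  · rw [Finset.sum_union h3, h5]
  · have h6 : (s₀ ∪ t i).card ≤ 2 * (c * L) := by
      refine (Finset.card_union_le _ _).trans ?_
      omega
    have h7 : ((s₀ ∪ t i).card : ℝ) ≤ 2 * (c * L) := by exact_mod_cast h6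
    refine h7.trans ?_
    have h8 : c₃ * ll ≤ c₂ * (c₃ * ll) := le_mul_of_one_le_left hc3ll hc₂1
    have h9 : (c : ℝ) * L ≤ c * (c₂ * (c₃ * ll)) :=
      mul_le_mul_of_nonneg_left (hLR.trans h8) hcR
    calc (2 : ℝ) * (c * L) ≤ 2 * (c * (c₂ * (c₃ * ll))) := by linarith only [h9]
      _ = 2 * c * c₂ * c₃ * ll := by ring
  · intro n hn
    apply hsize
    rcases Finset.mem_union.1 hn with hn | hn
    · exact (hs₀ n hn).2
    · exact (h4 n hn).2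

/-- Many short expansions, forming a sunflower, with denominators of polynomial size. -/
theorem sunflower (A : ℕ) : ∃ C : ℝ, ∀ a b : ℕ, 1 ≤ a → a < b →
    ∃ (s₀ : Finset ℕ) (t : Fin (b ^ A) → Finset ℕ),
      (∀ i, (t i).Nonempty ∧ Disjoint s₀ (t i)) ∧ (∀ i j, i ≠ j → Disjoint (t i) (t j)) ∧
      ∀ i, IsExpansion a b (s₀ ∪ t i) ∧
        ((s₀ ∪ t i).card : ℝ) ≤ C * Real.log (Real.log ((b : ℝ) + 2)) ∧
        ∀ n ∈ s₀ ∪ t i, (n : ℝ) ≤ (b : ℝ) ^ C :=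
  sunflower_of_key (key_of' (vector_of' collision_bound prime_count)) prime_count A

end Vale.Agent.P012.H584
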