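import Vale.Agent.P012.H584.DigitsT

/-!
# P012 / H584 : the greedy part, with distinct denominators and positive remainder
-/

set_option linter.all false

namespace Vale.Agent.P012.H584

open Finset Vale.Agent.P012

theorem greedy' (j a b : ℕ) (ha : 0 < a) (hab : a < b) :
    ∃ (a' b' : ℕ) (s : Finset ℕ), 0 < a' ∧ 0 < b' ∧ b' ≤ b * 2 ^ (2 * 2 ^ j) ∧
      a' * 2 ^ (2 ^ j) ≤ b' ∧ s.card ≤ j + 1 ∧ (∀ n ∈ s, 2 ≤ n ∧ n ≤ 2 ^ (2 ^ j) ∧ n * a' ≤ b') ∧
      ∑ n ∈ s, (1 : ℚ) / n + (a' : ℚ) / b' = (a : ℚ) / b := by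
  classical
  have hb : 0 < b := by omega
  induction j with
  | zero =>
    by_cases h : a * 2 ≤ b
    · refine ⟨a, b, ∅, ha, hb, ?_, ?_, by simp, by simp, by simp⟩
      · norm_num; omega
      · simpa only [pow_zero, pow_one] using h
    · refine ⟨2 * a - b, 2 * b, {2}, by omega, by omega, ?_, ?_, by simp, ?_, ?_⟩
      · norm_num; omega
      · norm_num; omega
      · intro n hn
        rw [Finset.mem_singleton] at hn
        subst hn
        refine ⟨le_rfl, by norm_num, by omega⟩
      · have h2 : ((2 * a - b : ℕ) : ℚ) = 2 * a - b := by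
          rw [Nat.cast_sub (by omega)]; push_cast; ring
        have hb' : (b : ℚ) ≠ 0 := by positivity
        rw [Finset.sum_singleton, h2]; push_cast; field_simp; ring
  | succ j ih =>
    obtain ⟨a', b', s, ha', h1, h2, h3, hsc, hs, h4⟩ := ih
    set E := 2 ^ (2 ^ j) with hE
    have hE2 : 2 ^ (2 ^ (j + 1)) = E ^ 2 := by rw [hE, ← pow_mul, pow_succ]
    have hE4 : 2 ^ (2 * 2 ^ (j + 1)) = 2 ^ (2 * 2 ^ j) * E ^ 2 := by
      rw [hE, ← pow_mul, ← pow_add]; congr 1; ring
    have hEpos : 0 < E := by positivity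
    have hEE : E ≤ E ^ 2 := by rw [sq]; exact Nat.le_mul_of_pos_left _ hEpos
    by_cases h : a' * E ^ 2 ≤ b'
    · refine ⟨a', b', s, ha', h1, ?_, ?_, by omega, ?_, h4⟩
      · rw [hE4]
        calc b' ≤ b * 2 ^ (2 * 2 ^ j) := h2
          _ ≤ b * (2 ^ (2 * 2 ^ j) * E ^ 2) := by
            apply Nat.mul_le_mul_left
            exact Nat.le_mul_of_pos_right _ (by positivity)
      · rw [hE2]; exact h
      · intro n hn
        obtain ⟨e1, e2, e3⟩ := hs n hn
        rw [hE2]
        exact ⟨e1, e2.trans hEE, e3⟩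
    · push Not at h
      -- n = floor (b' / a') + 1
      obtain ⟨c, hc⟩ : ∃ c, c = b' / a' := ⟨_, rfl⟩
      have hc1 : a' * c ≤ b' := by rw [hc]; exact Nat.mul_div_le b' a'
      have hc2 : b' < a' * (c + 1) := by rw [hc]; exact Nat.lt_mul_div_succ b' ha'
      have hcE : E ≤ c := by
        rw [hc, Nat.le_div_iff_mul_le ha', mul_comm]; exact h3
      have hcE2 : c < E ^ 2 := by
        by_contra hcon
        push Not at hcon
        have : a' * E ^ 2 ≤ a' * c := Nat.mul_le_mul_left _ hcon
        omega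
      have hE2' : 2 ≤ E := by
        rw [hE]
        calc 2 = 2 ^ 1 := by norm_num
          _ ≤ 2 ^ (2 ^ j) := Nat.pow_le_pow_right (by norm_num) (Nat.one_le_two_pow)
      have hexp : a' * (c + 1) = a' * c + a' := by ring
      have hn0 : c + 1 ∉ s := by
        intro hmem
        have e3 := (hs _ hmem).2.2
        rw [mul_comm] at e3
        omega
      refine ⟨a' * (c + 1) - b', b' * (c + 1), insert (c + 1) s, by omega,
        Nat.mul_pos h1 (by omega), ?_, ?_, ?_, ?_, ?_⟩
      · rw [hE4]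
        calc b' * (c + 1) ≤ (b * 2 ^ (2 * 2 ^ j)) * E ^ 2 := Nat.mul_le_mul h2 (by omega)
          _ = b * (2 ^ (2 * 2 ^ j) * E ^ 2) := by ring
      · rw [hE2]
        have h6 : a' * (c + 1) - b' ≤ a' := by omega
        calc (a' * (c + 1) - b') * E ^ 2 ≤ a' * E ^ 2 := Nat.mul_le_mul_right _ h6
          _ = (a' * E) * E := by ring
          _ ≤ b' * (c + 1) := Nat.mul_le_mul h3 (by omega)
      · rw [Finset.card_insert_of_notMem hn0]; omega
      · intro n hn
        rw [hE2]
        rcases Finset.mem_insert.1 hn with rfl | hn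
        · refine ⟨by omega, by omega, ?_⟩
          rw [mul_comm b']
          apply Nat.mul_le_mul_left
          have : a' * 1 ≤ a' * c := Nat.mul_le_mul_left _ (by omega)
          omega
        · obtain ⟨e1, e2, e3⟩ := hs n hn
          refine ⟨e1, e2.trans hEE, ?_⟩
          calc n * (a' * (c + 1) - b') ≤ n * a' := Nat.mul_le_mul_left _ (by omega)
            _ ≤ b' := e3
            _ ≤ b' * (c + 1) := Nat.le_mul_of_pos_right _ (by omega)
      · have h7 : ((a' * (c + 1) - b' : ℕ) : ℚ) = a' * (c + 1) - b' := by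
          rw [Nat.cast_sub hc2.le]; push_cast; ring
        have hb' : (b' : ℚ) ≠ 0 := by positivity
        have hn' : (c : ℚ) + 1 ≠ 0 := by positivity
        rw [Finset.sum_insert hn0, ← h4, h7]
        push_cast
        field_simp
        ring

end Vale.Agent.P012.H584
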