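import Vale.Agent.P012.H584.Vector

/-!
# P012 / H584 : the key statement, robust form
-/

set_option linter.all false

namespace Vale.Agent.P012.H584

open Finset Filter Vale.Agent.P012

/-- A dense set of good numerators with robust representations. -/
def KeyStatement' : Prop :=
    ∃ m₀ : ℕ, ∀ m ≥ m₀, ∃ N₂ : ℕ, 0 < N₂ ∧ N₂ ≤ m ^ (7000 * m) ∧ ∃ G : Finset ℕ,
      (∀ R ∈ G, Rob (2 ^ (16 * m)) (12 * N₂ ^ 2) 12 ((R : ℚ) / N₂)) ∧
      ∀ y q : ℕ, 2 ^ (31 * m) ≤ q → y + q ≤ 2 ^ (32 * m) →
        4 * ((Finset.Ioc y (y + q)).filter (fun R => R ∉ G)).card ≤ q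

open Classical in
theorem key_of' (hC : VectorStatement') : KeyStatement' := by
  obtain ⟨m₀, hm₀⟩ := hC
  -- numeric requirements
  have hnum : ∃ m₁ : ℕ, ∀ m ≥ m₁, Nat.sqrt m * (Nat.log 2 m + 6) ≤ m := by
    refine ⟨256, fun m hm => ?_⟩
    have hL : 8 ≤ Nat.log 2 m := Nat.le_log_of_pow_le (by norm_num) (by simpa using hm)
    have hmL : 2 ^ (Nat.log 2 m) ≤ m := Nat.pow_log_le_self 2 (by omega)
    have hlin : ∀ h : ℕ, 4 ≤ h → 2 * h + 7 ≤ 2 ^ h := by
      intro h hh
      induction h, hh using Nat.le_induction with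
      | base => norm_num
      | succ k hk ih => rw [pow_succ]; omega
    have h1 : Nat.log 2 m + 6 ≤ 2 ^ (Nat.log 2 m / 2) := by
      have := hlin (Nat.log 2 m / 2) (by omega)
      omega
    have h2 : 2 ^ (Nat.log 2 m / 2) ≤ Nat.sqrt m := by
      rw [Nat.le_sqrt, ← pow_add]
      exact (Nat.pow_le_pow_right (by norm_num) (by omega)).trans hmL
    calc Nat.sqrt m * (Nat.log 2 m + 6) ≤ Nat.sqrt m * Nat.sqrt m :=
          Nat.mul_le_mul_left _ (h1.trans h2)
      _ ≤ m := Nat.sqrt_le m
  obtain ⟨m₁, hm₁⟩ := hnum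
  refine ⟨max (max m₀ m₁) 8192, fun m hm => ?_⟩
  have hmm₀ : m₀ ≤ m := by omega
  have hmm₁ : m₁ ≤ m := by omega
  have hm8 : 8192 ≤ m := by omega
  obtain ⟨x, hxinj, hx, hsum⟩ := hm₀ m hmm₀
  set z := Nat.sqrt m with hz
  set e := Nat.log 2 m + 6 with he
  have hze : z * e ≤ m := hm₁ m hmm₁
  have hzm : z ≤ m := Nat.sqrt_le_self m
  have he1 : 64 * m < 2 ^ (e + 1) := by
    have : m < 2 ^ (Nat.log 2 m + 1) := Nat.lt_pow_succ_log_self (by norm_num) m
    calc 64 * m < 64 * 2 ^ (Nat.log 2 m + 1) := by omega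
      _ = 2 ^ (e + 1) := by rw [he]; ring
  set G := (Finset.Ioc 0 (2 ^ (32 * m))).filter (fun R =>
    (∀ i, ¬ x i ∣ R) ∧ (∀ t ∈ Finset.Icc 2 z, ¬ t ^ (e + 1) ∣ R) ∧
      ∀ g, g ∣ R → z < g → ¬ Bad x g) with hG
  refine ⟨z.factorial ^ e * (∏ i, x i) ^ 2, ?_, ?_, G, ?_, ?_⟩
  · have : 0 < ∏ i, x i := Finset.prod_pos (fun i _ => (hx i).1.pos)
    (clear * - this; positivity)
  · have h1 : z.factorial ^ e ≤ m ^ m := by
      calc z.factorial ^ e ≤ (z ^ z) ^ e := Nat.pow_le_pow_left (Nat.factorial_le_pow z) e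
        _ = z ^ (z * e) := by rw [← pow_mul]
        _ ≤ m ^ (z * e) := Nat.pow_le_pow_left hzm _
        _ ≤ m ^ m := Nat.pow_le_pow_right (by omega) hze
    have h2 : ∏ i, x i ≤ m ^ (48 * (64 * m)) := by
      calc ∏ i, x i ≤ ∏ i : Fin (64 * m), m ^ 48 := Finset.prod_le_prod' (fun i _ => (hx i).2.2)
        _ = m ^ (48 * (64 * m)) := by simp only [prod_const, card_univ, Fintype.card_fin, pow_mul]
    calc z.factorial ^ e * (∏ i, x i) ^ 2 ≤ m ^ m * (m ^ (48 * (64 * m))) ^ 2 :=
          Nat.mul_le_mul h1 (Nat.pow_le_pow_left h2 2)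
      _ = m ^ (m + 48 * (64 * m) * 2) := by rw [← pow_mul, ← pow_add]
      _ ≤ m ^ (7000 * m) := Nat.pow_le_pow_right (by omega) (by (clear * - hm8; omega))
  · intro R hR
    rw [hG, Finset.mem_filter, Finset.mem_Ioc] at hR
    obtain ⟨⟨hR0, hRZ⟩, hR1, hR2, hR3⟩ := hR
    apply rob_of_good (fun i => (hx i).1) hxinj z e R (2 ^ (16 * m)) hR0
    rotate_left 2
    · calc 3 * R * (144 + 12 * 2 ^ (16 * m))
          ≤ 3 * 2 ^ (32 * m) * (144 * 2 ^ (16 * m) + 12 * 2 ^ (16 * m)) := by
            apply Nat.mul_le_mul (Nat.mul_le_mul_left _ hRZ)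
            apply Nat.add_le_add_right
            exact Nat.le_mul_of_pos_right _ (by positivity)
        _ = 468 * 2 ^ (48 * m) := by
            have : 2 ^ (48 * m) = 2 ^ (32 * m) * 2 ^ (16 * m) := by rw [← pow_add]; congr 1; ring
            rw [this]; ring
        _ < 2 ^ 9 * 2 ^ (48 * m) := Nat.mul_lt_mul_of_pos_right (by norm_num) (by positivity)
        _ ≤ 2 ^ (64 * m) := by
            rw [← pow_add]
            exact Nat.pow_le_pow_right (by norm_num) (by omega)
    · intro t ht1 ht2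
      exact hR2 t (Finset.mem_Icc.2 ⟨ht1, ht2⟩)
    · intro g hg hzg
      have h4 := hR3 g hg hzg
      by_contra hcon
      push Not at hcon
      apply h4
      refine ⟨fun i => ?_, hcon⟩
      exact Nat.Coprime.coprime_dvd_right hg (((hx i).1.coprime_iff_not_dvd).2 (hR1 i))
  · intro y q hq hyq
    -- cover the non-good integers
    set I := Finset.Ioc y (y + q) with hI
    have hcover : I.filter (fun R => R ∉ G) ⊆
        ((Finset.univ : Finset (Fin (64 * m))).biUnion (fun i => I.filter (fun R => x i ∣ R))) ∪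
        ((Finset.Icc 2 z).biUnion (fun t => I.filter (fun R => t ^ (e + 1) ∣ R))) ∪
        (((Finset.Ioc z (2 ^ (32 * m))).filter (fun g => Bad x g)).biUnion
          (fun g => I.filter (fun R => g ∣ R))) := by
      intro R hR
      rw [Finset.mem_filter] at hR
      obtain ⟨hRI, hRG⟩ := hR
      have hRI' := hRI
      rw [hI, Finset.mem_Ioc] at hRI'
      have hR0 : 0 < R := by omega
      have hRZ : R ≤ 2 ^ (32 * m) := by omega
      rw [hG, Finset.mem_filter, Finset.mem_Ioc] at hRG
      by_cases h1 : ∀ i, ¬ x i ∣ R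
      · by_cases h2 : ∀ t ∈ Finset.Icc 2 z, ¬ t ^ (e + 1) ∣ R
        · have h3 : ¬ ∀ g, g ∣ R → z < g → ¬ Bad x g := fun h3 => hRG ⟨⟨hR0, hRZ⟩, h1, h2, h3⟩
          push Not at h3
          obtain ⟨g, hg1, hg2, hg3⟩ := h3
          apply Finset.mem_union_right
          rw [Finset.mem_biUnion]
          refine ⟨g, Finset.mem_filter.2 ⟨Finset.mem_Ioc.2 ⟨hg2, ?_⟩, hg3⟩,
            Finset.mem_filter.2 ⟨hRI, hg1⟩⟩
          exact (Nat.le_of_dvd hR0 hg1).trans hRZ
        · push Not at h2
          obtain ⟨t, ht1, ht2⟩ := h2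
          apply Finset.mem_union_left
          apply Finset.mem_union_right
          rw [Finset.mem_biUnion]
          exact ⟨t, ht1, Finset.mem_filter.2 ⟨hRI, ht2⟩⟩
      · push Not at h1
        obtain ⟨i, hi⟩ := h1
        apply Finset.mem_union_left
        apply Finset.mem_union_left
        rw [Finset.mem_biUnion]
        exact ⟨i, Finset.mem_univ _, Finset.mem_filter.2 ⟨hRI, hi⟩⟩
    have hqpos : (0 : ℝ) < q := by
      have : 0 < 2 ^ (31 * m) := by positivity
      exact_mod_cast (by omega : 0 < q)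
    have hmR : (8192 : ℝ) ≤ m := by exact_mod_cast hm8
    have hqm : (64 : ℝ) * (64 * m) ≤ q := by
      have h1 : 64 * (64 * m) ≤ 2 ^ (31 * m) := by
        have h2 : m < 2 ^ m := Nat.lt_two_pow_self
        calc 64 * (64 * m) = 2 ^ 12 * m := by ring
          _ ≤ 2 ^ m * 2 ^ m := Nat.mul_le_mul (Nat.pow_le_pow_right (by norm_num) (by omega)) h2.le
          _ = 2 ^ (m + m) := by rw [pow_add]
          _ ≤ 2 ^ (31 * m) := Nat.pow_le_pow_right (by norm_num) (by omega)
      exact_mod_cast h1.trans hq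
    -- first part
    have hA : ((((Finset.univ : Finset (Fin (64 * m))).biUnion
        (fun i => I.filter (fun R => x i ∣ R))).card : ℕ) : ℝ) ≤ q / 16 := by
      calc ((((Finset.univ : Finset (Fin (64 * m))).biUnion
          (fun i => I.filter (fun R => x i ∣ R))).card : ℕ) : ℝ)
          ≤ ((∑ i : Fin (64 * m), (I.filter (fun R => x i ∣ R)).card : ℕ) : ℝ) := by
            exact_mod_cast Finset.card_biUnion_le
        _ = ∑ i : Fin (64 * m), ((I.filter (fun R => x i ∣ R)).card : ℝ) := by push_cast; rfl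
        _ ≤ ∑ i : Fin (64 * m), ((q : ℝ) / (m ^ 2) + 1) := by
            apply Finset.sum_le_sum
            intro i _
            refine (card_dvd_Ioc y q (x i)).trans ?_
            have h1 : ((m : ℝ) ^ 2) ≤ x i := by exact_mod_cast (hx i).2.1.le
            have h2 : (0 : ℝ) < (m : ℝ) ^ 2 := by positivity
            (clear * - hqpos hm8 h1; gcongr)
        _ = 64 * m * ((q : ℝ) / (m ^ 2) + 1) := by simp only [sum_const, card_univ, Fintype.card_fin, smul_add, nsmul_eq_mul, Nat.cast_mul, Nat.cast_ofNat, mul_one]; ring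
        _ = 64 * q / m + 64 * m := by (clear * - hm8 hqpos; field_simp)
        _ ≤ q / 64 + q / 64 := by
            apply add_le_add
            · rw [div_le_div_iff₀ (by positivity) (by positivity)]
              nlinarith only [hmR]
            · linarith only [hqm]
        _ ≤ q / 16 := by linarith only [hqm]
    have hB : ((((Finset.Icc 2 z).biUnion (fun t => I.filter (fun R => t ^ (e + 1) ∣ R))).card
        : ℕ) : ℝ) ≤ q / 16 := by
      calc ((((Finset.Icc 2 z).biUnion (fun t => I.filter (fun R => t ^ (e + 1) ∣ R))).card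
          : ℕ) : ℝ)
          ≤ ((∑ t ∈ Finset.Icc 2 z, (I.filter (fun R => t ^ (e + 1) ∣ R)).card : ℕ) : ℝ) := by
            exact_mod_cast Finset.card_biUnion_le
        _ = ∑ t ∈ Finset.Icc 2 z, ((I.filter (fun R => t ^ (e + 1) ∣ R)).card : ℝ) := by
            push_cast; rfl
        _ ≤ ∑ t ∈ Finset.Icc 2 z, ((q : ℝ) / (64 * m) + 1) := by
            apply Finset.sum_le_sum
            intro t ht
            rw [Finset.mem_Icc] at ht
            refine (card_dvd_Ioc y q (t ^ (e + 1))).trans ?_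
            have h1 : ((64 * m : ℕ) : ℝ) ≤ ((t ^ (e + 1) : ℕ) : ℝ) := by
              apply Nat.cast_le.2
              exact he1.le.trans (Nat.pow_le_pow_left ht.1 _)
            have h2 : (0 : ℝ) < 64 * m := by positivity
            push_cast at h1 ⊢
            (clear * - hqpos hm8 h1; gcongr)
        _ = ((Finset.Icc 2 z).card : ℝ) * ((q : ℝ) / (64 * m) + 1) := by simp only [sum_const, Nat.card_Icc, Nat.reduceSubDiff, smul_add, nsmul_eq_mul, mul_one]; ring
        _ ≤ m * ((q : ℝ) / (64 * m) + 1) := by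
            have h1 : ((Finset.Icc 2 z).card : ℝ) ≤ m := by
              have : (Finset.Icc 2 z).card ≤ m := by rw [Nat.card_Icc]; omega
              exact_mod_cast this
            (clear * - h1 hqpos hm8; gcongr)
        _ = q / 64 + m := by (clear * - hm8 hqpos; field_simp)
        _ ≤ q / 16 := by linarith only [hqm]
    have hC' : (((((Finset.Ioc z (2 ^ (32 * m))).filter (fun g => Bad x g)).biUnion
          (fun g => I.filter (fun R => g ∣ R))).card : ℕ) : ℝ) ≤ q / 16 := by
      have hHpos : (0 : ℝ) < 2 ^ (31 * m) := by positivity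
      have hqH : (2 : ℝ) ^ (31 * m) ≤ q := by exact_mod_cast hq
      calc (((((Finset.Ioc z (2 ^ (32 * m))).filter (fun g => Bad x g)).biUnion
          (fun g => I.filter (fun R => g ∣ R))).card : ℕ) : ℝ)
          ≤ ((∑ g ∈ (Finset.Ioc z (2 ^ (32 * m))).filter (fun g => Bad x g),
              (I.filter (fun R => g ∣ R)).card : ℕ) : ℝ) := by
            exact_mod_cast Finset.card_biUnion_le
        _ = ∑ g ∈ (Finset.Ioc z (2 ^ (32 * m))).filter (fun g => Bad x g),
              ((I.filter (fun R => g ∣ R)).card : ℝ) := by push_cast; rfl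
        _ ≤ ∑ g ∈ (Finset.Ioc z (2 ^ (32 * m))).filter (fun g => Bad x g),
              (q / 2 ^ (31 * m)) * ((2 : ℝ) ^ (31 * m) / g + 1) := by
            apply Finset.sum_le_sum
            intro g hg
            refine (card_dvd_Ioc y q g).trans ?_
            rw [mul_add, mul_one]
            apply add_le_add
            · apply le_of_eq; (clear * - hqpos; field_simp)
            · rw [le_div_iff₀ hHpos]; linarith only [hqH]
        _ = (q / 2 ^ (31 * m)) * ∑ g ∈ (Finset.Ioc z (2 ^ (32 * m))).filter (fun g => Bad x g),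
              ((2 : ℝ) ^ (31 * m) / g + 1) := by rw [Finset.mul_sum]
        _ ≤ (q / 2 ^ (31 * m)) * (2 ^ (31 * m) / 16) := by
            apply mul_le_mul_of_nonneg_left hsum; (clear * - hqpos; positivity)
        _ = q / 16 := by (clear * - hqpos; field_simp)
    have hfinal : (((I.filter (fun R => R ∉ G)).card : ℕ) : ℝ) ≤ q / 16 + q / 16 + q / 16 := by
      refine le_trans ?_ (add_le_add (add_le_add hA hB) hC')
      have h1 := (Finset.card_le_card hcover).trans ((Finset.card_union_le _ _).trans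
        (Nat.add_le_add_right (Finset.card_union_le _ _) _))
      exact_mod_cast h1
    have : (4 : ℝ) * ((I.filter (fun R => R ∉ G)).card : ℝ) ≤ q := by linarith only [hfinal]
    exact_mod_cast this


end Vale.Agent.P012.H584
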