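import Vale.Agent.P012.H584.Count

/-!
# P012 / H584 : robust representations

`Rob Φ B k x`: `x` is a sum of at most `k` distinct unit fractions with denominators at most `B`
which avoid any given finite set (of size at most `Φ - k`).
-/

set_option linter.all false

namespace Vale.Agent.P012.H584

open Finset Vale.Agent.P012

/-- Representations avoiding any given finite set. -/
def Rob (Φ B k : ℕ) (x : ℚ) : Prop :=
  ∀ F : Finset ℕ, F.card + k ≤ Φ → ∃ s : Finset ℕ, s.card ≤ k ∧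
    (∀ n ∈ s, 0 < n ∧ n ≤ B ∧ n ∉ F) ∧ ∑ n ∈ s, (1 : ℚ) / n = x

variable {Φ B B' k l : ℕ} {x y : ℚ}

theorem Rob.mono (h : Rob Φ B k x) (hk : k ≤ l) (hB : B ≤ B') : Rob Φ B' l x := by
  intro F hF
  obtain ⟨s, h1, h2, h3⟩ := h F (by omega)
  exact ⟨s, h1.trans hk, fun n hn => ⟨(h2 n hn).1, (h2 n hn).2.1.trans hB, (h2 n hn).2.2⟩, h3⟩

theorem rob_zero (Φ B k : ℕ) : Rob Φ B k 0 := fun F _ => ⟨∅, by simp, by simp, by simp⟩

theorem Rob.add (hx : Rob Φ B k x) (hy : Rob Φ B l y) : Rob Φ B (k + l) (x + y) := by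
  classical
  intro F hF
  obtain ⟨s, h1, h2, h3⟩ := hx F (by omega)
  obtain ⟨t, h1', h2', h3'⟩ := hy (F ∪ s) (by
    have := Finset.card_union_le F s
    omega)
  have hd : Disjoint s t := by
    rw [Finset.disjoint_left]
    intro a ha hb
    exact (h2' a hb).2.2 (Finset.mem_union_right _ ha)
  refine ⟨s ∪ t, ?_, ?_, ?_⟩
  · have := Finset.card_union_le s t
    omega
  · intro n hn
    rcases Finset.mem_union.1 hn with h | h
    · exact h2 n h
    · exact ⟨(h2' n h).1, (h2' n h).2.1, fun hF => (h2' n h).2.2 (Finset.mem_union_left _ hF)⟩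
  · rw [Finset.sum_union hd, h3, h3']

theorem Rob.div (hx : Rob Φ B k x) {t : ℕ} (ht : 0 < t) : Rob Φ (B * t) k (x / t) := by
  classical
  intro F hF
  obtain ⟨s, h1, h2, h3⟩ := hx (F.image (· / t)) (by
    have := Finset.card_image_le (s := F) (f := (· / t))
    omega)
  have hinj : Set.InjOn (fun n : ℕ => n * t) s := by
    intro a _ b _ hab
    exact Nat.eq_of_mul_eq_mul_right ht hab
  refine ⟨s.image (fun n => n * t), ?_, ?_, ?_⟩
  · exact Finset.card_image_le.trans h1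
  · intro n hn
    obtain ⟨a, ha, rfl⟩ := Finset.mem_image.1 hn
    obtain ⟨h4, h5, h6⟩ := h2 a ha
    refine ⟨Nat.mul_pos h4 ht, Nat.mul_le_mul_right _ h5, fun hF' => h6 ?_⟩
    exact Finset.mem_image.2 ⟨a * t, hF', Nat.mul_div_cancel _ ht⟩
  · rw [Finset.sum_image (fun a ha b hb hab => hinj ha hb hab), ← h3, Finset.sum_div]
    refine Finset.sum_congr rfl fun n _ => ?_
    push_cast
    rw [div_div]

/-- The good numbers have robust representations with twelve terms. -/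
theorem rob_of_good {n : ℕ} {x : Fin n → ℕ} (hp : ∀ i, (x i).Prime)
    (hinj : Function.Injective x) (z e R Φ : ℕ) (hR : 0 < R)
    (h1 : ∀ t, 2 ≤ t → t ≤ z → ¬ t ^ (e + 1) ∣ R)
    (h2 : ∀ g, g ∣ R → z < g → (coll x g) ^ 4 * g ^ 3 ≤ 4 ^ (4 * n))
    (hΦ : 3 * R * (144 + 12 * Φ) < 2 ^ n) :
    Rob Φ (12 * (z.factorial ^ e * (∏ i, x i) ^ 2) ^ 2) 12
      ((R : ℚ) / ((z.factorial ^ e * (∏ i, x i) ^ 2 : ℕ) : ℚ)) := by
  intro F hF
  have hx : ∀ i, 0 < x i := fun i => (hp i).pos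
  set M := z.factorial ^ e with hM
  have hMpos : 0 < M := by positivity
  set Rs := Nat.gcd R M with hRs
  have hRspos : 0 < Rs := Nat.gcd_pos_of_pos_left _ hR
  set Rr := R / Rs with hRr
  have hRs_dvd : Rs ∣ R := Nat.gcd_dvd_left _ _
  have hRs_dvdM : Rs ∣ M := Nat.gcd_dvd_right _ _
  have hmul : Rs * Rr = R := Nat.mul_div_cancel' hRs_dvd
  have hRrpos : 0 < Rr := Nat.div_pos (Nat.le_of_dvd hR hRs_dvd) hRspos
  have hlarge : ∀ g, g ∣ Rr → 1 < g → z < g := by
    intro g hg hg1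
    by_contra hcon
    push Not at hcon
    set p := g.minFac with hp
    have hpp : p.Prime := Nat.minFac_prime (by omega)
    have hpz : p ≤ z := (Nat.minFac_le (by omega)).trans hcon
    have hpRr : p ∣ Rr := (Nat.minFac_dvd g).trans hg
    set v := R.factorization p with hv
    have hpv : p ^ v ∣ R := Nat.ordProj_dvd R p
    have hve : v ≤ e := by
      by_contra hc
      push Not at hc
      exact h1 p hpp.two_le hpz ((Nat.pow_dvd_pow p hc).trans hpv)
    have hpM : p ^ v ∣ M := by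
      have : p ∣ z.factorial := (Nat.Prime.dvd_factorial hpp).2 hpz
      exact (Nat.pow_dvd_pow p hve).trans (pow_dvd_pow_of_dvd this e)
    have hpRs : p ^ v ∣ Rs := Nat.dvd_gcd hpv hpM
    have : p ^ (v + 1) ∣ R := by
      rw [← hmul, pow_succ]
      exact Nat.mul_dvd_mul hpRs hpRr
    exact Nat.pow_succ_factorization_not_dvd hR.ne' hpp this
  have hMRs : 0 < M / Rs := Nat.div_pos (Nat.le_of_dvd hMpos hRs_dvdM) hRspos
  have hRrR : Rr ≤ R := Nat.div_le_self _ _
  have hFbound : 3 * Rr * (144 + 12 * F.card) < 2 ^ n := by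
    refine lt_of_le_of_lt ?_ hΦ
    apply Nat.mul_le_mul (Nat.mul_le_mul_left _ hRrR)
    omega
  obtain ⟨P', hST, hdinj, hdF⟩ := exists_dens hp hinj Rr (M / Rs) hRrpos hMRs (fun g hg hg1 =>
    h2 g (hg.trans ⟨Rs, by rw [mul_comm]; exact hmul.symm⟩) (hlarge g hg hg1)) F hFbound
  set P := ∏ i, x i with hP
  have hPpos : 0 < P := Finset.prod_pos (fun i _ => hx i)
  obtain ⟨w, hw⟩ := hST
  have hwdiv : (∑ i, qq x (P' i)) / Rr = w := by rw [hw]; exact Nat.mul_div_cancel_left _ hRrpos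
  have hsumpos : 0 < ∑ j, qq x (P' j) := by
    apply Finset.sum_pos
    · intro j _; exact qq_pos hp _
    · exact ⟨0, Finset.mem_univ _⟩
  have hwpos : 0 < w := by
    rcases Nat.eq_zero_or_pos w with h0 | h0
    · rw [hw, h0] at hsumpos; simp at hsumpos
    · exact h0
  set D := w * (M / Rs) with hDdef
  have hDpos : 0 < D := Nat.mul_pos hwpos hMRs
  have hdvd : ∀ j, qq x (P' j) ∣ P ^ 2 := fun j => qq_dvd _
  have hden : ∀ j, den x Rr (M / Rs) P' j = D * (P ^ 2 / qq x (P' j)) := by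
    intro j
    rw [den, hwdiv]
  have hdpos : ∀ j, 0 < den x Rr (M / Rs) P' j := by
    intro j
    rw [hden]
    apply Nat.mul_pos hDpos
    exact Nat.div_pos (Nat.le_of_dvd (by positivity) (hdvd j)) (qq_pos hp _)
  refine ⟨(Finset.univ : Finset (Fin 12)).image (fun j => den x Rr (M / Rs) P' j), ?_, ?_, ?_⟩
  · refine Finset.card_image_le.trans (le_of_eq ?_)
    rw [Finset.card_univ, Fintype.card_fin]
  · intro d hd
    obtain ⟨j, -, rfl⟩ := Finset.mem_image.1 hd
    refine ⟨hdpos j, ?_, hdF j⟩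
    rw [hden]
    have hq2 : ∀ i, qq x (P' i) ≤ P ^ 2 := fun i => Nat.le_of_dvd (by positivity) (hdvd i)
    have hsum12 : ∑ j, qq x (P' j) ≤ 12 * P ^ 2 := by
      refine (Finset.sum_le_card_nsmul _ _ (P ^ 2) fun i _ => hq2 i).trans (le_of_eq ?_)
      rw [Finset.card_univ, Fintype.card_fin, smul_eq_mul]
    have hw12 : w ≤ 12 * P ^ 2 := by
      refine le_trans ?_ hsum12
      rw [hw]
      exact Nat.le_mul_of_pos_left _ hRrpos
    have hMR : M / Rs ≤ M := Nat.div_le_self _ _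
    calc D * (P ^ 2 / qq x (P' j)) ≤ (12 * P ^ 2 * M) * P ^ 2 :=
          Nat.mul_le_mul (Nat.mul_le_mul hw12 hMR) (Nat.div_le_self _ _)
      _ = 12 * (M * (P ^ 2 * P ^ 2)) := by ring
      _ ≤ 12 * (M * M * (P ^ 2 * P ^ 2)) := by
          apply Nat.mul_le_mul_left
          apply Nat.mul_le_mul_right
          exact Nat.le_mul_of_pos_left _ hMpos
      _ = 12 * (M * P ^ 2) ^ 2 := by ring
  · rw [Finset.sum_image (fun a _ b _ hab => hdinj hab)]
    have hPQ : (P : ℚ) ≠ 0 := by positivity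
    have hDQ : (D : ℚ) ≠ 0 := by positivity
    have hterm : ∀ j : Fin 12, (1 : ℚ) / ((den x Rr (M / Rs) P' j : ℕ) : ℚ)
        = ((qq x (P' j) : ℕ) : ℚ) / (D * P ^ 2) := by
      intro j
      have ha : ((qq x (P' j) : ℕ) : ℚ) ≠ 0 := by
        have := qq_pos hp (P' j)
        positivity
      rw [hden, Nat.cast_mul, Nat.cast_div (hdvd j) ha]
      rw [Nat.cast_pow]
      field_simp
    rw [Finset.sum_congr rfl (fun j _ => hterm j), ← Finset.sum_div, ← Nat.cast_sum, hw]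
    have hRsQ : (Rs : ℚ) ≠ 0 := by positivity
    have hwQ : (w : ℚ) ≠ 0 := by positivity
    have hMQ : (M : ℚ) ≠ 0 := by positivity
    have hDQ' : (D : ℚ) = w * (M / Rs) := by
      rw [hDdef, Nat.cast_mul, Nat.cast_div hRs_dvdM hRsQ]
    rw [hDQ', ← hmul]
    push_cast
    field_simp

end Vale.Agent.P012.H584
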