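import Vale.Agent.P012.H584.Greedy

/-!
# P012 / H584 : tags, that is, many primes not dividing a given number
-/

set_option linter.all false

namespace Vale.Agent.P012.H584

open Finset Vale.Agent.P012

theorem tags (hP : PrimeCountStatement) : ∃ m₁ : ℕ, ∀ x ≥ m₁, ∀ w b' : ℕ, w ≤ 2 ^ (45 * x) →
    0 < b' → b' ≤ 2 ^ w → ∃ T : Finset ℕ, 2 ^ x ≤ T.card ∧
      ∀ ρ ∈ T, ρ.Prime ∧ 2 ^ (2 * x) < ρ ∧ ρ ≤ 2 ^ (48 * x) ∧ ¬ ρ ∣ b' := by
  classical
  obtain ⟨m₀, hm₀⟩ := hP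
  refine ⟨m₀ + 7, fun x hx w b' hw hb' hb'w => ?_⟩
  set X := 2 ^ x with hX
  have hxX : x < X := Nat.lt_two_pow_self
  have h100 : 100 ≤ X := by
    calc 100 ≤ 2 ^ 7 := by norm_num
      _ ≤ X := Nat.pow_le_pow_right (by norm_num) (by omega)
  have hcount := hm₀ X (by omega)
  set P := (Finset.Ioc (X ^ 2) (X ^ 48)).filter Nat.Prime with hPdef
  have hlogX : Real.log (X : ℝ) ≤ X := by
    have hX0 : (0 : ℝ) ≤ X := Nat.cast_nonneg _
    exact (Real.log_le_self hX0)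
  have h1 : (X : ℝ) ^ 48 ≤ (X * X * P.card : ℝ) := by
    refine hcount.trans ?_
    have h2 : (100 : ℝ) ≤ X := by exact_mod_cast h100
    have h3 : (0 : ℝ) ≤ Real.log X := Real.log_nonneg (by linarith)
    apply mul_le_mul_of_nonneg_right _ (Nat.cast_nonneg _)
    apply mul_le_mul h2 hlogX h3 (by linarith)
  have h2 : X ^ 48 ≤ X * X * P.card := by exact_mod_cast h1
  have h3 : X ^ 46 ≤ P.card := by
    have h4 : X * X * X ^ 46 ≤ X * X * P.card := by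
      calc X * X * X ^ 46 = X ^ 48 := by ring
        _ ≤ _ := h2
    exact Nat.le_of_mul_le_mul_left h4 (by positivity)
  set D := P.filter (fun ρ => ρ ∣ b') with hD
  have hDcard : D.card ≤ w := by
    have h4 : ∏ ρ ∈ D, ρ ∣ b' := by
      apply Finset.prod_primes_dvd
      · intro ρ hρ
        exact (Finset.mem_filter.1 (Finset.mem_filter.1 hρ).1).2.prime
      · intro ρ hρ
        exact (Finset.mem_filter.1 hρ).2
    have h5 : 2 ^ D.card ≤ ∏ ρ ∈ D, ρ := by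
      apply Finset.pow_card_le_prod
      intro ρ hρ
      exact (Finset.mem_filter.1 (Finset.mem_filter.1 hρ).1).2.two_le
    have h6 : 2 ^ D.card ≤ 2 ^ w := (h5.trans (Nat.le_of_dvd hb' h4)).trans hb'w
    exact (Nat.pow_le_pow_iff_right (by norm_num)).1 h6
  have hcardsum : D.card + (P.filter (fun ρ => ¬ ρ ∣ b')).card = P.card :=
    Finset.card_filter_add_card_filter_not _
  have h45 : 2 ^ (45 * x) = X ^ 45 := by rw [hX, ← pow_mul]; congr 1; ring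
  rw [h45] at hw
  have h46 : X ^ 46 = X ^ 45 * X := pow_succ _ _
  have h47 : X ^ 45 * 2 ≤ X ^ 46 := by
    rw [h46]; exact Nat.mul_le_mul_left _ (by omega)
  have h48 : X ≤ X ^ 45 := by
    calc X = X ^ 1 := (pow_one _).symm
      _ ≤ X ^ 45 := Nat.pow_le_pow_right (by omega) (by norm_num)
  refine ⟨P.filter (fun ρ => ¬ ρ ∣ b'), by omega, fun ρ hρ => ?_⟩
  obtain ⟨h5, h6⟩ := Finset.mem_filter.1 hρ
  obtain ⟨h7, h8⟩ := Finset.mem_filter.1 h5
  rw [Finset.mem_Ioc] at h7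
  refine ⟨h8, ?_, ?_, h6⟩
  · have : 2 ^ (2 * x) = X ^ 2 := by rw [hX, ← pow_mul]; congr 1; ring
    rw [this]; exact h7.1
  · have : 2 ^ (48 * x) = X ^ 48 := by rw [hX, ← pow_mul]; congr 1; ring
    rw [this]; exact h7.2

/-- From representations of the multiples `ρ y`, for tags `ρ`, to disjoint representations of `y`. -/
theorem petals_of_tags {T : Finset ℕ} {Φ B K : ℕ} {y : ℚ} (hy : 0 < y)
    (hT : ∀ ρ ∈ T, ρ.Prime) (h : ∀ ρ ∈ T, RobT T Φ B K ((ρ : ℚ) * y)) (s₀ : Finset ℕ)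
    (hΦ : s₀.card + K ≤ Φ) (R : ℕ) (hR : ∀ ρ ∈ T, ρ ≤ R) (k : ℕ) (hk : k ≤ T.card) :
    ∃ t : Fin k → Finset ℕ,
      (∀ i, (t i).Nonempty ∧ (t i).card ≤ K ∧ Disjoint s₀ (t i) ∧
        (∀ n ∈ t i, 0 < n ∧ n ≤ B * R) ∧ ∑ n ∈ t i, (1 : ℚ) / n = y) ∧
      ∀ i j, i ≠ j → Disjoint (t i) (t j) := by
  classical
  have hex : ∀ ρ : ↥T, ∃ u : Finset ℕ, u.card ≤ K ∧
      (∀ n ∈ u, 0 < n ∧ n ≤ B ∧ n ∉ s₀.image (· / (ρ : ℕ)) ∧ ∀ σ ∈ T, ¬ σ ∣ n) ∧
      ∑ n ∈ u, (1 : ℚ) / n = ((ρ : ℕ) : ℚ) * y := by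
    intro ρ
    apply h ρ ρ.2
    have := Finset.card_image_le (s := s₀) (f := (· / (ρ : ℕ)))
    omega
  choose u hu1 hu2 hu3 using hex
  obtain ⟨f⟩ : Nonempty (Fin k ↪ ↥T) := by
    apply Function.Embedding.nonempty_of_card_le
    rw [Fintype.card_fin, Fintype.card_coe]
    exact hk
  have hpos : ∀ ρ : ↥T, 0 < (ρ : ℕ) := fun ρ => (hT ρ ρ.2).pos
  refine ⟨fun i => (u (f i)).image (fun n => n * (f i : ℕ)), ?_, ?_⟩
  · intro i
    have hsum : ∑ n ∈ (u (f i)).image (fun n => n * (f i : ℕ)), (1 : ℚ) / n = y := by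
      rw [Finset.sum_image (fun a _ b _ hab => Nat.eq_of_mul_eq_mul_right (hpos (f i)) hab)]
      have h1 : ∀ n ∈ u (f i), (1 : ℚ) / ((n * (f i : ℕ) : ℕ) : ℚ)
          = (1 / (n : ℚ)) / ((f i : ℕ) : ℚ) := by
        intro n _
        push_cast
        rw [div_div]
      rw [Finset.sum_congr rfl h1, ← Finset.sum_div, hu3]
      have : (((f i : ℕ)) : ℚ) ≠ 0 := by exact_mod_cast (hpos (f i)).ne'
      field_simp
    refine ⟨?_, ?_, ?_, ?_, hsum⟩
    · rw [Finset.nonempty_iff_ne_empty]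
      intro hemp
      beta_reduce at hemp
      rw [hemp, Finset.sum_empty] at hsum
      rw [← hsum] at hy
      exact lt_irrefl _ hy
    · exact Finset.card_image_le.trans (hu1 _)
    · rw [Finset.disjoint_left]
      intro n hn hn2
      obtain ⟨l, hl, rfl⟩ := Finset.mem_image.1 hn2
      exact (hu2 _ l hl).2.2.1 (Finset.mem_image.2 ⟨_, hn, Nat.mul_div_cancel _ (hpos (f i))⟩)
    · intro n hn
      obtain ⟨l, hl, rfl⟩ := Finset.mem_image.1 hn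
      obtain ⟨h4, h5, -, -⟩ := hu2 _ l hl
      exact ⟨Nat.mul_pos h4 (hpos _), Nat.mul_le_mul h5 (hR _ (f i).2)⟩
  · intro i j hij
    rw [Finset.disjoint_left]
    intro n hn hn2
    obtain ⟨l, hl, rfl⟩ := Finset.mem_image.1 hn
    obtain ⟨l', hl', hll⟩ := Finset.mem_image.1 hn2
    have h1 : (f i : ℕ) ∣ l' * (f j : ℕ) := ⟨l, by rw [hll, mul_comm]⟩
    rcases ((hT _ (f i).2).dvd_mul).1 h1 with h2 | h2
    · exact (hu2 _ l' hl').2.2.2 _ (f i).2 h2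
    · have h3 : (f i : ℕ) = (f j : ℕ) :=
        ((Nat.prime_dvd_prime_iff_eq (hT _ (f i).2) (hT _ (f j).2)).1 h2)
      exact hij (f.injective (Subtype.ext h3))

end Vale.Agent.P012.H584
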