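import Vale.Agent.P012.H584.Tags

/-!
# P012 / H584 : many short expansions with denominators of polynomial size
-/

set_option linter.all false

namespace Vale.Agent.P012.H584

open Finset Filter Vale.Agent.P012

/-- The combinatorial upper bound, in terms of integer logarithms: `m = ⌊log₂ b⌋ + 1`,
`L = ⌊log₂ m⌋ + 1`. -/
theorem upperT (hkey : KeyStatement') (hP : PrimeCountStatement) (A : ℕ) :
    ∃ c b₀ : ℕ, ∀ b ≥ b₀, ∀ a : ℕ, 0 < a → a < b →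
    ∀ m L : ℕ, m = Nat.log 2 b + 1 → L = Nat.log 2 m + 1 →
    ∃ (s₀ : Finset ℕ) (t : Fin (b ^ A) → Finset ℕ), s₀.card ≤ c * L ∧
      (∀ n ∈ s₀, 2 ≤ n ∧ n ≤ 2 ^ (c * m)) ∧
      (∀ i, (t i).Nonempty ∧ (t i).card ≤ c * L ∧ Disjoint s₀ (t i) ∧
        (∀ n ∈ t i, 0 < n ∧ n ≤ 2 ^ (c * m)) ∧
        ∑ n ∈ s₀, (1 : ℚ) / n + ∑ n ∈ t i, (1 : ℚ) / n = (a : ℚ) / b) ∧
      ∀ i j, i ≠ j → Disjoint (t i) (t j) := by
  obtain ⟨m₀, hm₀⟩ := hkey
  obtain ⟨m₁, hm₁⟩ := tags hP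
  obtain ⟨g, hg⟩ : ∃ g, g = 7003 + A := ⟨_, rfl⟩
  obtain ⟨c₁, hc₁⟩ : ∃ c₁, c₁ = 7000 + 48 * g := ⟨_, rfl⟩
  obtain ⟨cw, hcw⟩ : ∃ cw, cw = 1 + 4 * c₁ := ⟨_, rfl⟩
  obtain ⟨K₀, hK₀⟩ : ∃ K₀, K₀ = m₀ + m₁ + 146 * cw + 7 := ⟨_, rfl⟩
  refine ⟨200 * cw, 2 ^ (2 ^ K₀), fun b hb a ha hab m L hm hL => ?_⟩
  have hb0 : b ≠ 0 := by omega
  have hmlog : 2 ^ K₀ ≤ Nat.log 2 b := Nat.le_log_of_pow_le (by norm_num) hb
  have hmK : 2 ^ K₀ ≤ m := by omega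
  have hm0 : m ≠ 0 := by omega
  have hLK : K₀ + 1 ≤ L := by
    have := Nat.le_log_of_pow_le (by norm_num) hmK
    omega
  have hbm : b < 2 ^ m := by rw [hm]; exact Nat.lt_pow_succ_log_self (by norm_num) b
  have hmL : m < 2 ^ L := by rw [hL]; exact Nat.lt_pow_succ_log_self (by norm_num) m
  have hmL2 : 2 ^ (L - 1) ≤ m := by
    have := Nat.pow_log_le_self 2 hm0
    rwa [show L - 1 = Nat.log 2 m by omega]
  have hLL : ∀ l : ℕ, 7 ≤ l → l * l ≤ 2 ^ (l - 1) := by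
    intro l hl
    induction l, hl using Nat.le_induction with
    | base => norm_num
    | succ k hk ih =>
      have h1 : 2 ^ (k + 1 - 1) = 2 * 2 ^ (k - 1) := by
        rw [← pow_succ']; congr 1; omega
      rw [h1]
      nlinarith only [ih, hk]
  have hLLm : L * L ≤ m := (hLL L (by omega)).trans hmL2
  obtain ⟨mu, hmu⟩ : ∃ mu, mu = m / L := ⟨_, rfl⟩
  have hLpos : 0 < L := by omega
  have hLmu : L ≤ mu := by rw [hmu]; exact (Nat.le_div_iff_mul_le hLpos).2 hLLm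
  have hmuL : L * mu ≤ m := by rw [hmu]; exact Nat.mul_div_le m L
  have hmuL' : m < L * (mu + 1) := by rw [hmu]; exact Nat.lt_mul_div_succ m hLpos
  have hmu2 : 2 ≤ mu := by omega
  have hmum : mu ≤ m := by rw [hmu]; exact Nat.div_le_self _ _
  have hLm : L ≤ m := hLmu.trans hmum
  obtain ⟨N₂, hN0, hN, G, hG, hd⟩ := hm₀ mu (by omega)
  have hNA : N₂ ≤ 2 ^ (7000 * m) := by
    calc N₂ ≤ mu ^ (7000 * mu) := hN
      _ ≤ (2 ^ L) ^ (7000 * mu) := Nat.pow_le_pow_left (by omega) _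
      _ = 2 ^ (7000 * (L * mu)) := by rw [← pow_mul]; congr 1; ring
      _ ≤ 2 ^ (7000 * m) := Nat.pow_le_pow_right (by norm_num) (Nat.mul_le_mul_left _ hmuL)
  obtain ⟨x, hx⟩ : ∃ x, x = g * m := ⟨_, rfl⟩
  have hgm : 7003 * m ≤ x := by rw [hx]; exact Nat.mul_le_mul_right _ (by omega)
  obtain ⟨A₁, hA₁⟩ : ∃ A₁, A₁ = 7000 * m + 48 * x := ⟨_, rfl⟩
  have hA₁' : A₁ = c₁ * m := by rw [hA₁, hx, hc₁]; ring
  have hA₁0 : A₁ ≠ 0 := by omega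
  obtain ⟨j, hj⟩ : ∃ j, j = Nat.log 2 A₁ + 1 := ⟨_, rfl⟩
  have hj1 : A₁ < 2 ^ j := by rw [hj]; exact Nat.lt_pow_succ_log_self (by norm_num) A₁
  have hj2 : 2 ^ j ≤ 2 * A₁ := by
    rw [hj, pow_succ, mul_comm]
    exact Nat.mul_le_mul_left _ (Nat.pow_log_le_self 2 hA₁0)
  obtain ⟨a', b', s₀, ha'0, hb', hb'2, ha', hs₀c, hs₀, hsum⟩ := greedy' j a b ha hab
  obtain ⟨w, hw⟩ : ∃ w, w = m + 4 * A₁ := ⟨_, rfl⟩
  have hw' : w = cw * m := by rw [hw, hA₁', hcw]; ring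
  have hb'w : b' ≤ 2 ^ w := by
    calc b' ≤ b * 2 ^ (2 * 2 ^ j) := hb'2
      _ ≤ 2 ^ m * 2 ^ (4 * A₁) := by
          apply Nat.mul_le_mul hbm.le
          apply Nat.pow_le_pow_right (by norm_num)
          omega
      _ = 2 ^ w := by rw [← pow_add, hw]
  -- the tags
  have hx1 : m₁ ≤ x := by omega
  have hwx : w ≤ 2 ^ (45 * x) := by
    have h1 : x < 2 ^ x := Nat.lt_two_pow_self
    calc w ≤ 2 ^ 8 * x := by omega
      _ ≤ 2 ^ x * 2 ^ x := Nat.mul_le_mul (Nat.pow_le_pow_right (by norm_num) (by omega)) h1.le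
      _ = 2 ^ (2 * x) := by rw [← pow_add]; congr 1; ring
      _ ≤ 2 ^ (45 * x) := Nat.pow_le_pow_right (by norm_num) (by omega)
  obtain ⟨T, hTc, hT⟩ := hm₁ x hx1 w b' hwx hb' hb'w
  have hTb : b ^ A ≤ T.card := by
    refine le_trans ?_ hTc
    calc b ^ A ≤ (2 ^ m) ^ A := Nat.pow_le_pow_left hbm.le _
      _ = 2 ^ (A * m) := by rw [← pow_mul]; congr 1; ring
      _ ≤ 2 ^ x := Nat.pow_le_pow_right (by norm_num) (by
          rw [hx]; exact Nat.mul_le_mul_right _ (by omega))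
  have hB₀ : 12 * N₂ ^ 2 ≤ 2 ^ (4 + 14000 * m) := by
    calc 12 * N₂ ^ 2 ≤ 2 ^ 4 * (2 ^ (7000 * m)) ^ 2 :=
          Nat.mul_le_mul (by norm_num) (Nat.pow_le_pow_left hNA 2)
      _ = 2 ^ (4 + 14000 * m) := by rw [← pow_mul, ← pow_add]; congr 1; ring
  have hTbig : ∀ ρ ∈ T, 12 * N₂ ^ 2 < ρ := by
    intro ρ hρ
    refine lt_of_le_of_lt (hB₀.trans ?_) (hT ρ hρ).2.1
    exact Nat.pow_le_pow_right (by norm_num) (by omega)
  have hT2 : ∀ ρ ∈ T, ρ.Prime ∧ 2 < ρ := by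
    intro ρ hρ
    refine ⟨(hT ρ hρ).1, ?_⟩
    have h1 := hTbig ρ hρ
    have h2 : 0 < N₂ ^ 2 := by positivity
    omega
  have hTb' : ∀ ρ ∈ T, ρ.Prime ∧ ¬ ρ ∣ b' := fun ρ hρ => ⟨(hT ρ hρ).1, (hT ρ hρ).2.2.2⟩
  have hGT : ∀ R ∈ G, RobT T (2 ^ (16 * mu)) (12 * N₂ ^ 2) 12 ((R : ℚ) / N₂) :=
    fun R hR => (hG R hR).toT hTbig
  -- representations of the multiples
  obtain ⟨K₁, hK₁⟩ : ∃ K₁, K₁ = 12 * (w / (mu - 1) + 3) := ⟨_, rfl⟩
  have hrep : ∀ ρ ∈ T, RobT T (2 ^ (16 * mu)) (12 * N₂ ^ 2 * 2 ^ (w + 32 * mu) * b') (K₁ + K₁)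
      ((ρ : ℚ) * ((a' : ℚ) / b')) := by
    intro ρ hρ
    set N := 2 ^ w * N₂ * ρ with hNdef
    set q := a' * N / b' with hq
    set r := a' * N % b' with hr
    have hqr : b' * q + r = a' * N := Nat.div_add_mod _ _
    have hrw : r ≤ 2 ^ w := (Nat.mod_lt _ hb').le.trans hb'w
    have hqw : q ≤ 2 ^ w := by
      rw [hq]
      apply Nat.div_le_of_le_mul
      have h1 : a' * (N₂ * ρ) ≤ b' := by
        calc a' * (N₂ * ρ) ≤ a' * 2 ^ (2 ^ j) := by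
              apply Nat.mul_le_mul_left
              calc N₂ * ρ ≤ 2 ^ (7000 * m) * 2 ^ (48 * x) :=
                    Nat.mul_le_mul hNA (hT ρ hρ).2.2.1
                _ = 2 ^ A₁ := by rw [← pow_add, hA₁]
                _ ≤ 2 ^ (2 ^ j) := Nat.pow_le_pow_right (by norm_num) hj1.le
          _ ≤ b' := ha'
      calc a' * N = (a' * (N₂ * ρ)) * 2 ^ w := by rw [hNdef]; ring
        _ ≤ b' * 2 ^ w := Nat.mul_le_mul_right _ h1
    have h1 := digitsT G hT2 hmu2 hN0 hGT hd w q hqw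
    have h2 := (digitsT G hT2 hmu2 hN0 hGT hd w r hrw).div hb' hTb'
    have h3 := (h1.mono le_rfl (Nat.le_mul_of_pos_right _ hb')).add h2
    have h4 : (q : ℚ) / (2 ^ w * N₂) + (r : ℚ) / (2 ^ w * N₂) / b' = (ρ : ℚ) * ((a' : ℚ) / b') := by
      have hb'Q : (b' : ℚ) ≠ 0 := by positivity
      have hN' : (N₂ : ℚ) ≠ 0 := by positivity
      have h5 : (b' : ℚ) * q + r = a' * (2 ^ w * N₂ * ρ) := by
        have := congrArg (fun n : ℕ => (n : ℚ)) hqr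
        simp only [hNdef] at this
        push_cast at this
        exact this
      field_simp
      linarith only [h5]
    rw [h4, ← hK₁] at h3
    exact h3
  -- numerics
  have hwmu : w / (mu - 1) ≤ 3 * cw * L := by
    apply Nat.div_le_of_le_mul
    have h7 : mu + 1 ≤ 3 * (mu - 1) := by (clear * - hmu2; omega)
    calc w = cw * m := hw'
      _ ≤ cw * (L * (mu + 1)) := Nat.mul_le_mul_left _ hmuL'.le
      _ ≤ cw * (L * (3 * (mu - 1))) := Nat.mul_le_mul_left _ (Nat.mul_le_mul_left _ h7)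
      _ = (mu - 1) * (3 * cw * L) := by ring
  have hcwL : cw ≤ cw * L := Nat.le_mul_of_pos_right _ hLpos
  have hcwm : cw ≤ cw * m := Nat.le_mul_of_pos_right _ (by omega)
  have hK₁L : K₁ ≤ 72 * (cw * L) := by
    have e1 : 3 * cw * L = 3 * (cw * L) := by ring
    rw [e1] at hwmu
    have hcw1 : 1 ≤ cw * L := by omega
    generalize w / (mu - 1) = z at *
    (clear * - hwmu hK₁ hcw1; omega)
  have hjL : j ≤ c₁ + L := by
    have h9 : A₁ < 2 ^ (c₁ + L) := by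
      have h1 : c₁ < 2 ^ c₁ := Nat.lt_two_pow_self
      calc A₁ = c₁ * m := hA₁'
        _ < 2 ^ c₁ * 2 ^ L := Nat.mul_lt_mul'' h1 hmL
        _ = 2 ^ (c₁ + L) := by rw [← pow_add]
    have h10 : Nat.log 2 A₁ < c₁ + L := Nat.log_lt_of_lt_pow hA₁0 h9
    omega
  have hLcwL : L ≤ cw * L := Nat.le_mul_of_pos_left _ (by omega)
  have hs₀L : s₀.card ≤ 2 * (cw * L) := by omega
  have hcap : s₀.card + (K₁ + K₁) ≤ 2 ^ (16 * mu) := by
    have h1 : L < 2 ^ L := Nat.lt_two_pow_self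
    calc s₀.card + (K₁ + K₁) ≤ 146 * (cw * L) := by omega
      _ = (146 * cw) * L := by ring
      _ ≤ 2 ^ L * 2 ^ L := Nat.mul_le_mul (by omega) h1.le
      _ = 2 ^ (2 * L) := by rw [← pow_add]; congr 1; ring
      _ ≤ 2 ^ (16 * mu) := Nat.pow_le_pow_right (by norm_num) (by omega)
  obtain ⟨t, ht, htd⟩ := petals_of_tags (y := (a' : ℚ) / b') (by positivity)
    (fun ρ hρ => (hT ρ hρ).1) hrep s₀ hcap (2 ^ (48 * x)) (fun ρ hρ => (hT ρ hρ).2.2.1) _ hTb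
  -- exponents
  have hexp : 4 + 14000 * m + (w + 32 * mu) + w + 48 * x ≤ 200 * cw * m := by
    have e1 : 200 * cw * m = 200 * (cw * m) := by ring
    rw [e1, ← hw']
    omega
  have hBR : 12 * N₂ ^ 2 * 2 ^ (w + 32 * mu) * b' * 2 ^ (48 * x) ≤ 2 ^ (200 * cw * m) := by
    calc 12 * N₂ ^ 2 * 2 ^ (w + 32 * mu) * b' * 2 ^ (48 * x)
        ≤ 2 ^ (4 + 14000 * m) * 2 ^ (w + 32 * mu) * 2 ^ w * 2 ^ (48 * x) :=
          Nat.mul_le_mul_right _ (Nat.mul_le_mul (Nat.mul_le_mul_right _ hB₀) hb'w)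
      _ = 2 ^ (4 + 14000 * m + (w + 32 * mu) + w + 48 * x) := by
          rw [← pow_add, ← pow_add, ← pow_add]
      _ ≤ 2 ^ (200 * cw * m) := Nat.pow_le_pow_right (by norm_num) hexp
  refine ⟨s₀, t, ?_, ?_, ?_, htd⟩
  · have e1 : 200 * cw * L = 200 * (cw * L) := by ring
    rw [e1]; omega
  · intro n hn
    obtain ⟨e1, e2, -⟩ := hs₀ n hn
    refine ⟨e1, e2.trans (Nat.pow_le_pow_right (by norm_num) ?_)⟩
    refine hj2.trans (le_trans ?_ hexp)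
    omega
  · intro i
    obtain ⟨h1, h2, h3, h4, h5⟩ := ht i
    refine ⟨h1, ?_, h3, fun n hn => ⟨(h4 n hn).1, (h4 n hn).2.trans hBR⟩, ?_⟩
    · have e1 : 200 * cw * L = 200 * (cw * L) := by ring
      rw [e1]; omega
    · rw [h5, hsum]

end Vale.Agent.P012.H584
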