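import Vale.Agent.P012.H584.Rob

/-!
# P012 / H584 : vectors of distinct primes
-/

set_option linter.all false

namespace Vale.Agent.P012.H584

open Finset Filter Vale.Agent.P012

open Classical in
/-- There is a vector of distinct primes with few bad moduli. -/
def VectorStatement' : Prop :=
    ∃ m₀ : ℕ, ∀ m ≥ m₀, ∃ x : Fin (64 * m) → ℕ, Function.Injective x ∧
      (∀ i, (x i).Prime ∧ m ^ 2 < x i ∧ x i ≤ m ^ 48) ∧
      ∑ g ∈ (Finset.Ioc (Nat.sqrt m) (2 ^ (32 * m))).filter (fun g => Bad x g),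
        ((2 : ℝ) ^ (31 * m) / g + 1) ≤ 2 ^ (31 * m) / 16

open Classical in
/-- Most vectors are injective. -/
theorem card_noninj {n : ℕ} (P : Finset ℕ) :
    ((Fintype.piFinset (fun _ : Fin n => P)).filter (fun x => ¬ Function.Injective x)).card *
      P.card ≤ n ^ 2 * P.card ^ n := by
  have hpair : ∀ ij : Fin n × Fin n, ij.1 ≠ ij.2 →
      ((Fintype.piFinset (fun _ : Fin n => P)).filter (fun x => x ij.1 = x ij.2)).card ≤
        P.card ^ (n - 1) := by
    rintro ⟨i, j⟩ hij
    simp only at hij ⊢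
    have h1 : ((Fintype.piFinset (fun _ : Fin n => P)).filter (fun x => x i = x j)).card ≤
        (Fintype.piFinset (fun _ : {k : Fin n // k ≠ i} => P)).card := by
      apply Finset.card_le_card_of_injOn (fun x => fun k => x k.1)
      · intro x hx
        simp only [Finset.coe_filter, Set.mem_ofPred_eq, Fintype.mem_piFinset] at hx
        simp only [Finset.mem_coe, Fintype.mem_piFinset]
        exact fun k => hx.1 k.1
      · intro x hx y hy hxy
        simp only [Finset.coe_filter, Set.mem_ofPred_eq] at hx hy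
        have e1 : ∀ k, k ≠ i → x k = y k := fun k hk => congrFun hxy ⟨k, hk⟩
        funext k
        by_cases hk : k = i
        · rw [hk, hx.2, hy.2]
          exact e1 j (Ne.symm hij)
        · exact e1 k hk
    refine h1.trans (le_of_eq ?_)
    rw [Fintype.card_piFinset, Finset.prod_const, Finset.card_univ, Fintype.card_subtype_compl,
      Fintype.card_fin, Fintype.card_subtype_eq]
  have hsub : (Fintype.piFinset (fun _ : Fin n => P)).filter (fun x => ¬ Function.Injective x) ⊆
      ((univ : Finset (Fin n × Fin n)).filter (fun ij => ij.1 ≠ ij.2)).biUnion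
        (fun ij => (Fintype.piFinset (fun _ : Fin n => P)).filter (fun x => x ij.1 = x ij.2)) := by
    intro x hx
    rw [Finset.mem_filter] at hx
    obtain ⟨hx1, hx2⟩ := hx
    rw [Function.Injective] at hx2
    push Not at hx2
    obtain ⟨i, j, h1, h2⟩ := hx2
    rw [Finset.mem_biUnion]
    exact ⟨(i, j), Finset.mem_filter.2 ⟨Finset.mem_univ _, h2⟩, Finset.mem_filter.2 ⟨hx1, h1⟩⟩
  rcases Nat.eq_zero_or_pos n with rfl | hn
  · have : (Fintype.piFinset (fun _ : Fin 0 => P)).filter (fun x => ¬ Function.Injective x) = ∅ := by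
      apply Finset.filter_false_of_mem
      intro x _ hx
      exact hx (fun i => i.elim0)
    rw [this]
    simp
  have h2 : ((Fintype.piFinset (fun _ : Fin n => P)).filter
      (fun x => ¬ Function.Injective x)).card ≤ n ^ 2 * P.card ^ (n - 1) := by
    refine (Finset.card_le_card hsub).trans ?_
    refine (Finset.card_biUnion_le_card_mul _ _ _ fun ij hij =>
      hpair ij (Finset.mem_filter.1 hij).2).trans ?_
    apply Nat.mul_le_mul_right
    refine (Finset.card_le_card (Finset.filter_subset _ _)).trans (le_of_eq ?_)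
    rw [Finset.card_univ, Fintype.card_prod, Fintype.card_fin, sq]
  calc _ ≤ n ^ 2 * P.card ^ (n - 1) * P.card := Nat.mul_le_mul_right _ h2
    _ = n ^ 2 * P.card ^ n := by
        rw [mul_assoc, ← pow_succ]
        congr 2
        omega

open Classical in
theorem vector_of' (hB : CollStatement) (hC1 : PrimeCountStatement) : VectorStatement' := by
  obtain ⟨m₁, hm₁⟩ := hC1
  obtain ⟨m₂, hm₂⟩ := eventually_num
  refine ⟨max (max m₁ m₂) (2 ^ 150), fun m hm => ?_⟩
  have hmm₁ : m₁ ≤ m := le_trans (le_trans (le_max_left _ _) (le_max_left _ _)) hm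
  have hmm₂ : m₂ ≤ m := le_trans (le_trans (le_max_right _ _) (le_max_left _ _)) hm
  have hmbig : 2 ^ 150 ≤ m := le_trans (le_max_right _ _) hm
  have hPc := hm₁ m hmm₁
  have hnum := hm₂ m hmm₂
  obtain ⟨P, hPdef⟩ : ∃ P, P = (Finset.Ioc (m ^ 2) (m ^ 48)).filter Nat.Prime := ⟨_, rfl⟩
  rw [← hPdef] at hPc
  obtain ⟨l, hl⟩ : ∃ l : ℝ, l = 100 * Real.log m := ⟨_, rfl⟩
  rw [← hl] at hPc
  have hm64 : 64 ≤ m := le_trans (by norm_num) hmbig
  have hm3200 : 3200 ≤ m := le_trans (by norm_num) hmbig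
  have hm0 : (0 : ℝ) < m := by exact_mod_cast (by omega : 0 < m)
  have hmR : (3200 : ℝ) ≤ m := by exact_mod_cast hm3200
  have hlog1 : 1 ≤ Real.log m := by
    rw [Real.le_log_iff_exp_le hm0]
    have := Real.exp_one_lt_d9
    linarith only [hmR, this]
  have hlogm : Real.log m ≤ m := by
    have := Real.log_le_sub_one_of_pos hm0
    linarith only [this]
  have hl1 : 1 ≤ l := by rw [hl]; linarith only [hlog1]
  have hlm : 32 * m * l ≤ (m : ℝ) ^ 3 := by
    rw [hl]
    calc 32 * (m : ℝ) * (100 * Real.log m) = 3200 * m * Real.log m := by ring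
      _ ≤ m * m * m := by
          apply mul_le_mul _ hlogm (by linarith only [hlog1]) (by positivity)
          exact mul_le_mul_of_nonneg_right hmR hm0.le
      _ = (m : ℝ) ^ 3 := by ring
  have hPmem : ∀ p ∈ P, p.Prime ∧ m ^ 2 < p ∧ p ≤ m ^ 48 := by
    intro p hp
    rw [hPdef, Finset.mem_filter, Finset.mem_Ioc] at hp
    exact ⟨hp.2, hp.1.1, hp.1.2⟩
  have hPne : P.Nonempty := by
    rw [Finset.nonempty_iff_ne_empty]
    intro h0
    rw [h0] at hPc
    simp only [card_empty, CharP.cast_eq_zero, mul_zero] at hPc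
    have : (0 : ℝ) < (m : ℝ) ^ 48 := by positivity
    linarith only [hPc, this]
  have hcardpos : (0 : ℝ) < P.card := by exact_mod_cast hPne.card_pos
  -- z
  obtain ⟨z, hz⟩ : ∃ z, z = Nat.sqrt m := ⟨_, rfl⟩
  have hz64 : 2 ^ 72 ≤ z := by
    rw [hz, Nat.le_sqrt, ← pow_add]
    exact le_trans (Nat.pow_le_pow_right (by norm_num) (by norm_num)) hmbig
  have hz0 : 0 < z := lt_of_lt_of_le (by norm_num) hz64
  have hzm : m < (z + 1) * (z + 1) := by rw [hz]; exact Nat.lt_succ_sqrt m
  obtain ⟨Z, hZ⟩ : ∃ Z : ℕ, Z = 2 ^ (32 * m) := ⟨_, rfl⟩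
  have hzZ : z ≤ Z := by
    calc z ≤ m := by rw [hz]; exact Nat.sqrt_le_self m
      _ ≤ 2 ^ m := Nat.lt_two_pow_self.le
      _ ≤ Z := by rw [hZ]; exact Nat.pow_le_pow_right (by norm_num) (by omega)
  rw [← hz, ← hZ]
  obtain ⟨H, hH⟩ : ∃ H : ℝ, H = 2 ^ (31 * m) := ⟨_, rfl⟩
  rw [← hH]
  have hHpos : 0 < H := by rw [hH]; positivity
  -- u
  let u : ℕ → ℝ := fun g => (g : ℝ) ^ (1 / 16 : ℝ)
  have hu16 : ∀ g : ℕ, (u g) ^ 16 = g := by
    intro g
    show ((g : ℝ) ^ (1 / 16 : ℝ)) ^ 16 = g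
    rw [← Real.rpow_natCast, ← Real.rpow_mul (by (clear * -; positivity))]
    norm_num
  have hupos : ∀ g : ℕ, 0 < g → 0 < u g := by
    intro g hg
    have : (0 : ℝ) < g := by exact_mod_cast hg
    exact Real.rpow_pos_of_pos this _
  have hu2 : ∀ g : ℕ, 0 < g → 1 / (u g) ^ 2 = (g : ℝ) ^ (-(1 / 8) : ℝ) := by
    intro g hg
    have h0 : (0 : ℝ) < g := by exact_mod_cast hg
    show 1 / ((g : ℝ) ^ (1 / 16 : ℝ)) ^ 2 = _
    rw [← Real.rpow_natCast, ← Real.rpow_mul h0.le, one_div, ← Real.rpow_neg h0.le]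
    norm_num
  have hulow : ∀ g : ℕ, z < g → 2 * l + 1 ≤ u g := by
    intro g hg
    have h1 : (2 * l + 1) ^ 32 ≤ ((u g)) ^ 32 := by
      have h2 : (2 * l + 1) = 200 * Real.log m + 1 := by rw [hl]; ring
      rw [h2]
      refine hnum.trans ?_
      have h3 : (m : ℝ) ≤ (g : ℝ) ^ 2 := by
        have : m ≤ g ^ 2 := by
          calc m ≤ (z + 1) * (z + 1) := hzm.le
            _ ≤ g * g := Nat.mul_le_mul hg hg
            _ = g ^ 2 := by ring
        exact_mod_cast this
      calc (m : ℝ) ≤ (g : ℝ) ^ 2 := h3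
        _ = ((u g) ^ 16) ^ 2 := by rw [hu16]
        _ = (u g) ^ 32 := by rw [← pow_mul]
    exact le_of_pow_le_pow_left₀ (by norm_num) (hupos g (by omega)).le h1
  -- contradiction
  by_contra hcon
  push Not at hcon
  set PF := Fintype.piFinset (fun _ : Fin (64 * m) => P) with hPF
  have hPFcard : (PF.card : ℝ) = (P.card : ℝ) ^ (64 * m) := by
    rw [hPF, Fintype.card_piFinset]; simp only [prod_const, card_univ, Fintype.card_fin, Nat.cast_pow]
  have hPFne : PF.Nonempty := by
    rw [hPF, Fintype.piFinset_nonempty]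
    exact fun _ => hPne
  have hPbig : (2 * (64 * m) ^ 2 : ℝ) ≤ P.card := by
    have hl100 : l ≤ 100 * m := by rw [hl]; linarith only [hlogm]
    have h1 : ((m : ℝ) ^ 48) ≤ 100 * m * P.card :=
      hPc.trans (mul_le_mul_of_nonneg_right hl100 hcardpos.le)
    have h2 : (2 * (64 * m) ^ 2 : ℝ) * (100 * m) ≤ (m : ℝ) ^ 48 := by
      have h3 : (819200 : ℝ) ≤ (m : ℝ) ^ 45 := by
        calc (819200 : ℝ) ≤ 3200 ^ 45 := by norm_num
          _ ≤ (m : ℝ) ^ 45 := pow_le_pow_left₀ (by norm_num) hmR 45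
      calc (2 * (64 * m) ^ 2 : ℝ) * (100 * m) = 819200 * (m : ℝ) ^ 3 := by ring
        _ ≤ (m : ℝ) ^ 45 * (m : ℝ) ^ 3 := mul_le_mul_of_nonneg_right h3 (by positivity)
        _ = (m : ℝ) ^ 48 := by ring
    have h4 : (2 * (64 * m) ^ 2 : ℝ) * (100 * m) ≤ P.card * (100 * m) := by
      linarith only [h1, h2]
    exact le_of_mul_le_mul_right h4 (by positivity)
  have hinjcard : (P.card : ℝ) ^ (64 * m) / 2 ≤ ((PF.filter (fun x => Function.Injective x)).card : ℝ) := by
    have h1 := card_noninj (n := 64 * m) P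
    rw [← hPF] at h1
    have h2 : (PF.filter (fun x => Function.Injective x)).card +
        (PF.filter (fun x => ¬ Function.Injective x)).card = PF.card :=
      Finset.card_filter_add_card_filter_not _
    have h3 : ((PF.filter (fun x => ¬ Function.Injective x)).card : ℝ) * P.card ≤
        (64 * m) ^ 2 * (P.card : ℝ) ^ (64 * m) := by exact_mod_cast h1
    have h4 : ((PF.filter (fun x => Function.Injective x)).card : ℝ) +
        (PF.filter (fun x => ¬ Function.Injective x)).card = (P.card : ℝ) ^ (64 * m) := by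
      rw [← hPFcard]; exact_mod_cast h2
    have h5 : 2 * ((PF.filter (fun x => ¬ Function.Injective x)).card : ℝ) ≤ (P.card : ℝ) ^ (64 * m) := by
      have h6 : 2 * ((PF.filter (fun x => ¬ Function.Injective x)).card : ℝ) * P.card ≤
          (P.card : ℝ) ^ (64 * m) * P.card := by
        calc 2 * ((PF.filter (fun x => ¬ Function.Injective x)).card : ℝ) * P.card
            ≤ 2 * ((64 * m) ^ 2 * (P.card : ℝ) ^ (64 * m)) := by linarith only [h3]
          _ = (P.card : ℝ) ^ (64 * m) * (2 * (64 * m) ^ 2) := by ring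
          _ ≤ (P.card : ℝ) ^ (64 * m) * P.card :=
              mul_le_mul_of_nonneg_left hPbig (pow_nonneg hcardpos.le _)
      exact le_of_mul_le_mul_right h6 hcardpos
    linarith only [h4, h5]
  have hcard0 : 0 < (P.card : ℝ) ^ (64 * m) := pow_pos hcardpos _
  have hlower : (P.card : ℝ) ^ (64 * m) / 2 * (H / 16) <
      ∑ x ∈ PF, ∑ g ∈ (Finset.Ioc z Z).filter (fun g => Bad x g), (H / g + 1) := by
    have hne : (PF.filter (fun x => Function.Injective x)).Nonempty := by
      rw [← Finset.card_pos]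
      have : (0 : ℝ) < ((PF.filter (fun x => Function.Injective x)).card : ℝ) := by
        linarith only [hinjcard, hcard0]
      exact_mod_cast this
    calc (P.card : ℝ) ^ (64 * m) / 2 * (H / 16)
        ≤ ((PF.filter (fun x => Function.Injective x)).card : ℝ) * (H / 16) :=
          mul_le_mul_of_nonneg_right hinjcard (by linarith only [hHpos])
      _ = ∑ x ∈ PF.filter (fun x => Function.Injective x), (H / 16) := by
          rw [Finset.sum_const, nsmul_eq_mul]
      _ < ∑ x ∈ PF.filter (fun x => Function.Injective x),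
            ∑ g ∈ (Finset.Ioc z Z).filter (fun g => Bad x g), (H / g + 1) := by
          apply Finset.sum_lt_sum_of_nonempty hne
          intro x hx
          rw [Finset.mem_filter] at hx
          have hx' : ∀ i, x i ∈ P := by
            have := hx.1
            rw [hPF, Fintype.mem_piFinset] at this; exact this
          exact hcon x hx.2 (fun i => hPmem _ (hx' i))
      _ ≤ _ := by
          apply Finset.sum_le_sum_of_subset_of_nonneg (Finset.filter_subset _ _)
          intro x _ _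
          apply Finset.sum_nonneg
          intro g _
          have : 0 ≤ H / (g : ℝ) := div_nonneg hHpos.le (Nat.cast_nonneg _)
          linarith only [this]
  have hpt : ∀ g ∈ Finset.Ioc z Z, ∑ x ∈ PF.filter (fun x => Bad x g), (H / g + 1) ≤
      (P.card : ℝ) ^ (64 * m) * (H * (g : ℝ) ^ (-(9 / 8) : ℝ) + (g : ℝ) ^ (-(1 / 8) : ℝ)) := by
    intro g hg
    rw [Finset.mem_Ioc] at hg
    have hg0 : 0 < g := by omega
    have hgR : (0 : ℝ) < g := by exact_mod_cast hg0
    have hug := hupos g hg0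
    have hcoef : 0 ≤ H / g + 1 := by (clear * - hHpos hg0; positivity)
    -- each bad x contributes at least 1
    have h1 : ∑ x ∈ PF.filter (fun x => Bad x g), (1 : ℝ) ≤
        ∑ x ∈ PF.filter (fun x => ∀ i, (x i).Coprime g),
          (coll x g : ℝ) * ((u g) ^ 12 / 4 ^ (64 * m)) := by
      calc ∑ x ∈ PF.filter (fun x => Bad x g), (1 : ℝ)
          ≤ ∑ x ∈ PF.filter (fun x => Bad x g), (coll x g : ℝ) * ((u g) ^ 12 / 4 ^ (64 * m)) := by
            apply Finset.sum_le_sum
            intro x hx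
            rw [Finset.mem_filter] at hx
            have h2 := hx.2.2
            have h3 : ((4 : ℝ) ^ (64 * m)) ^ 4 ≤ ((coll x g : ℝ) * (u g) ^ 12) ^ 4 := by
              have h4 : ((4 ^ (4 * (64 * m)) : ℕ) : ℝ) ≤ (((coll x g) ^ 4 * g ^ 3 : ℕ) : ℝ) := by
                exact_mod_cast h2.le
              push_cast at h4
              calc ((4 : ℝ) ^ (64 * m)) ^ 4 = 4 ^ (4 * (64 * m)) := by
                    rw [← pow_mul]; congr 1; ring
                _ ≤ (coll x g : ℝ) ^ 4 * (g : ℝ) ^ 3 := h4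
                _ = (coll x g : ℝ) ^ 4 * ((u g) ^ 16) ^ 3 := by rw [hu16]
                _ = ((coll x g : ℝ) * (u g) ^ 12) ^ 4 := by ring
            have h5 := le_of_pow_le_pow_left₀ (by norm_num) (by (clear * - hg0; positivity)) h3
            rw [← mul_div_assoc, le_div_iff₀ (by positivity), one_mul]
            exact h5
        _ ≤ _ := by
            apply Finset.sum_le_sum_of_subset_of_nonneg
            · intro x hx
              rw [Finset.mem_filter] at hx ⊢
              exact ⟨hx.1, hx.2.1⟩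
            · intro x _ _; (clear * - hg0; positivity)
    have h2 : ∑ x ∈ PF.filter (fun x => ∀ i, (x i).Coprime g),
          (coll x g : ℝ) * ((u g) ^ 12 / 4 ^ (64 * m)) ≤ (P.card : ℝ) ^ (64 * m) * (1 / (u g) ^ 2) := by
      rw [← Finset.sum_mul]
      have h3 := coll_avg hB P l (fun p hp => ⟨(hPmem p hp).1, (hPmem p hp).2.2⟩) hPne hm64 hl1 hPc hlm
        (by omega : 1 < g) (by rw [← hZ]; exact hg.2) (u g) hug (hu16 g) (hulow g hg.1)
      calc (∑ x ∈ PF.filter (fun x => ∀ i, (x i).Coprime g), (coll x g : ℝ))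
            * ((u g) ^ 12 / 4 ^ (64 * m))
          ≤ ((P.card : ℝ) ^ (64 * m) * (4 ^ (64 * m) / (u g) ^ 14)) * ((u g) ^ 12 / 4 ^ (64 * m)) := by
            apply mul_le_mul_of_nonneg_right h3 (by (clear * - hg0; positivity))
        _ = (P.card : ℝ) ^ (64 * m) * (1 / (u g) ^ 2) := by (clear * - hug hH hHpos hcoef hZ hz hz64 hz0 hzm hzZ hcon hg hl hl1 hlm hulow hPdef hPc hPmem hPne hcardpos hPF hPFcard hPFne hlower h1 h3; field_simp)
    calc ∑ x ∈ PF.filter (fun x => Bad x g), (H / g + 1)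
        = (H / g + 1) * ∑ x ∈ PF.filter (fun x => Bad x g), (1 : ℝ) := by
          rw [Finset.mul_sum]; simp only [sum_const, smul_add, nsmul_eq_mul, mul_one]
      _ ≤ (H / g + 1) * ((P.card : ℝ) ^ (64 * m) * (1 / (u g) ^ 2)) :=
          mul_le_mul_of_nonneg_left (h1.trans h2) hcoef
      _ = (P.card : ℝ) ^ (64 * m) * (H * ((g : ℝ)⁻¹ * (g : ℝ) ^ (-(1 / 8) : ℝ))
            + (g : ℝ) ^ (-(1 / 8) : ℝ)) := by
          rw [hu2 g hg0]; ring
      _ = _ := by
          have h4 : (g : ℝ)⁻¹ * (g : ℝ) ^ (-(1 / 8) : ℝ) = (g : ℝ) ^ (-(9 / 8) : ℝ) := by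
            rw [← Real.rpow_neg_one, ← Real.rpow_add hgR]; norm_num
          rw [h4]
  have hupper : ∑ x ∈ PF, ∑ g ∈ (Finset.Ioc z Z).filter (fun g => Bad x g), (H / g + 1) ≤
      (P.card : ℝ) ^ (64 * m) * (H / 32) := by
    have hswap : ∑ x ∈ PF, ∑ g ∈ (Finset.Ioc z Z).filter (fun g => Bad x g), (H / g + 1)
        = ∑ g ∈ Finset.Ioc z Z, ∑ x ∈ PF.filter (fun x => Bad x g), (H / g + 1) := by
      simp only [Finset.sum_filter]
      exact Finset.sum_comm
    rw [hswap]
    refine (Finset.sum_le_sum hpt).trans ?_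
    rw [← Finset.mul_sum]
    apply mul_le_mul_of_nonneg_left _ (by (clear * - hH hHpos hZ hz hz64 hz0 hzm hzZ hcon hl hl1 hlm hulow hPdef hPc hPmem hPne hcardpos hPF hPFcard hPFne hlower hpt hswap; positivity))
    rw [Finset.sum_add_distrib, ← Finset.mul_sum]
    have h1 := sum_Ioc_rpow_tail z Z hz0 hzZ
    have h2 := sum_Ioc_rpow_head z Z hz0 hzZ
    have h3 : (z : ℝ) ^ (-(1 / 8) : ℝ) ≤ 1 / 512 := by
      have h4 : ((2 : ℝ) ^ 72) ≤ z := by exact_mod_cast hz64
      have h5 : (z : ℝ) ^ (-(1 / 8) : ℝ) ≤ ((2 : ℝ) ^ 72) ^ (-(1 / 8) : ℝ) :=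
        Real.rpow_le_rpow_of_nonpos (by positivity) h4 (by norm_num)
      refine h5.trans (le_of_eq ?_)
      rw [← Real.rpow_natCast, ← Real.rpow_mul (by norm_num)]
      have : ((72 : ℕ) : ℝ) * (-(1 / 8)) = -9 := by norm_num
      rw [this, Real.rpow_neg (by norm_num)]
      norm_num
    have h6 : 2 * (Z : ℝ) ^ (7 / 8 : ℝ) ≤ H / 64 := by
      have h7 : (Z : ℝ) ^ (7 / 8 : ℝ) = 2 ^ (28 * m) := by
        rw [hZ]
        push_cast
        rw [← Real.rpow_natCast, ← Real.rpow_mul (by norm_num), ← Real.rpow_natCast]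
        congr 1
        push_cast; ring
      rw [h7, hH]
      have h8 : (128 : ℝ) * 2 ^ (28 * m) ≤ 2 ^ (31 * m) := by
        have : 31 * m = 28 * m + 3 * m := by ring
        rw [this, pow_add, mul_comm]
        apply mul_le_mul_of_nonneg_left _ (by positivity)
        calc (128 : ℝ) = 2 ^ 7 := by norm_num
          _ ≤ 2 ^ (3 * m) := pow_le_pow_right₀ (by norm_num) (by (clear * - hmbig; omega))
      linarith only [h8]
    have h9 : H * ∑ g ∈ Finset.Ioc z Z, (g : ℝ) ^ (-(9 / 8) : ℝ) ≤ H * (8 * (1 / 512)) := by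
      apply mul_le_mul_of_nonneg_left _ hHpos.le
      linarith only [h1, h3]
    linarith only [h2, h6, h9]
  have hfin : (P.card : ℝ) ^ (64 * m) / 2 * (H / 16) = (P.card : ℝ) ^ (64 * m) * (H / 32) := by ring
  rw [hfin] at hlower
  exact absurd (hlower.trans_le hupper) (lt_irrefl _)


end Vale.Agent.P012.H584
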